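import Vale.Agent.Lib.P154N.CkF0
import Vale.Agent.Lib.P154N.CkF1
import Vale.Agent.Lib.P154N.CkF2
import Vale.Agent.Lib.P154N.CkF3
import Vale.Agent.Lib.P154N.CkF4
import Vale.Agent.Lib.P154N.CkF5
import Vale.Agent.Lib.P154N.CkF6
import Vale.Agent.Lib.P154N.CkF7
import Vale.Agent.Lib.P154N.CkF8
import Vale.Agent.Lib.P154N.CkF9
import Vale.Agent.Lib.P154N.CkF10
import Vale.Agent.Lib.P154N.CkF11
import Vale.Agent.Lib.P154N.CkF12
import Vale.Agent.Lib.P154N.CkF13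
import Vale.Agent.Lib.P154N.CkF14
import Vale.Agent.Lib.P154N.CkF15
import Vale.Agent.Lib.P154N.CkF16
import Vale.Agent.Lib.P154N.CkF17
import Vale.Agent.Lib.P154N.CkF18
import Vale.Agent.Lib.P154N.CkF19
import Vale.Agent.Lib.P154N.CkF20
import Vale.Agent.Lib.P154N.CkF21
import Vale.Agent.Lib.P154N.CkF22
import Vale.Agent.Lib.P154N.CkF23
import Vale.Agent.Lib.P154N.CkF24
import Vale.Agent.Lib.P154N.CkF25
import Vale.Agent.Lib.P154N.CkF26
import Vale.Agent.Lib.P154N.CkF27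
import Vale.Agent.Lib.P154N.CkF28
import Vale.Agent.Lib.P154N.CkF29
import Vale.Agent.Lib.P154N.CkF30
import Vale.Agent.Lib.P154N.CkF31
import Vale.Agent.Lib.P154N.CkF32
import Vale.Agent.Lib.P154N.CkF33
import Vale.Agent.Lib.P154N.CkF34
import Vale.Agent.Lib.P154N.CkF35
import Vale.Agent.Lib.P154N.CkF36
import Vale.Agent.Lib.P154N.CkF37
import Vale.Agent.Lib.P154N.CkF38
import Vale.Agent.Lib.P154N.CkF39
import Vale.Agent.Lib.P154N.CkF40
import Vale.Agent.Lib.P154N.CkF41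
import Vale.Agent.Lib.P154N.CkF42
import Vale.Agent.Lib.P154N.CkF43
import Vale.Agent.Lib.P154N.CkF44
import Vale.Agent.Lib.P154N.CkF45
import Vale.Agent.Lib.P154N.CkF46
import Vale.Agent.Lib.P154N.CkF47
import Vale.Agent.Lib.P154N.CkF48
import Vale.Agent.Lib.P154N.CkF49

/-!
Kernel checks: final polynomial, assembled.
-/

namespace Vale.Agent.Lib.P154N

open Vale.Agent.Lib.Common.Kron Vale.Agent.Lib.Common.Kron.PE Vale.Agent.Lib.P154M

theorem hFA1 : ∃ T, checkT (eChA Lk1v0 Lk1v1 Lk1v2) regB [11, 11, 14, 9] T rootA1 = true :=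
  ⟨_, (checkT_node (checkT_node (checkT_node (checkT_node ghFA1_0 ghFA1_1) ghFA1_2) (checkT_node (checkT_node (checkT_node (checkT_node (checkT_node ghFA1_3 ghFA1_4) (checkT_node ghFA1_5 ghFA1_6)) ghFA1_7) ghFA1_8) (checkT_node (checkT_node ghFA1_9 ghFA1_10) (checkT_node ghFA1_11 (checkT_node ghFA1_12 (checkT_node ghFA1_13 (checkT_node ghFA1_14 (checkT_node ghFA1_15 (checkT_node ghFA1_16 (checkT_node ghFA1_17 (checkT_node ghFA1_18 (checkT_node ghFA1_19 (checkT_node ghFA1_20 ghFA1_21))))))))))))) (checkT_node (checkT_node ghFA1_22 (checkT_node ghFA1_23 (checkT_node (checkT_node ghFA1_24 (checkT_node ghFA1_25 (checkT_node ghFA1_26 (checkT_node ghFA1_27 (checkT_node (checkT_node ghFA1_28 (checkT_node ghFA1_29 (checkT_node ghFA1_30 ghFA1_31))) (checkT_node ghFA1_32 (checkT_node ghFA1_33 (checkT_node ghFA1_34 ghFA1_35)))))))) (checkT_node ghFA1_36 (checkT_node ghFA1_37 (checkT_node (checkT_node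 ghFA1_38 (checkT_node ghFA1_39 (checkT_node ghFA1_40 (checkT_node ghFA1_41 (checkT_node ghFA1_42 ghFA1_43))))) (checkT_node ghFA1_44 (checkT_node ghFA1_45 (checkT_node ghFA1_46 (checkT_node ghFA1_47 (checkT_node ghFA1_48 (checkT_node ghFA1_49 ghFA1_50)))))))))))) ghFA1_51))⟩

theorem hFA2 : ∃ T, checkT (eChA Lk1v0 Lk1v1 Lk1v2) (c 1) [11, 11, 14, 9] T rootA2 = true :=
  ⟨_, (checkT_node (checkT_node (checkT_node (checkT_node (checkT_node (checkT_node ghFA2_0 ghFA2_1) ghFA2_2) ghFA2_3) ghFA2_4) ghFA2_5) ghFA2_6)⟩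

theorem hFB1 : ∃ T, checkT (eChB1 Lk1v0 Lk1v1 Lk1v2) (c 1) [35, 11, 14, 9] T rootB1 = true :=
  ⟨_, ghFB1_0⟩

theorem hFB2 : ∃ T, checkT (eChB2 Lk1v0 Lk1v1 Lk1v2) (c 1) [35, 11, 11, 9] T rootB2 = true :=
  ⟨_, (checkT_node (checkT_node ghFB2_0 ghFB2_1) ghFB2_2)⟩

theorem hFK2 : ∃ T, checkT (eChA Lk2v0 Lk2v1 Lk2v2) regB [11, 11, 14, 9] T rootK2 = true :=
  ⟨_, (checkT_node (checkT_node ghFK2_0 ghFK2_1) (checkT_node (checkT_node ghFK2_2 (checkT_node ghFK2_3 (checkT_node (checkT_node ghFK2_4 (checkT_node ghFK2_5 (checkT_node ghFK2_6 ghFK2_7))) (checkT_node ghFK2_8 (checkT_node ghFK2_9 (checkT_node ghFK2_10 ghFK2_11)))))) (checkT_node ghFK2_12 (checkT_node ghFK2_13 (checkT_node (checkT_node ghFK2_14 (checkT_node ghFK2_15 ghFK2_16)) ghFK2_17)))))⟩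

theorem hFK3 : ∃ T, checkT (eChA Lk3v0 Lk3v1 Lk3v2) regB [11, 11, 14, 9] T rootK3 = true :=
  ⟨_, (checkT_node (checkT_node ghFK3_0 (checkT_node ghFK3_1 (checkT_node ghFK3_2 (checkT_node ghFK3_3 (checkT_node ghFK3_4 ghFK3_5))))) (checkT_node ghFK3_6 (checkT_node (checkT_node ghFK3_7 (checkT_node (checkT_node ghFK3_8 ghFK3_9) (checkT_node ghFK3_10 ghFK3_11))) (checkT_node ghFK3_12 (checkT_node (checkT_node ghFK3_13 (checkT_node ghFK3_14 ghFK3_15)) ghFK3_16)))))⟩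

theorem hFK4 : ∃ T, checkT (eChA Lk4v0 Lk4v1 Lk4v2) regB [11, 11, 14, 9] T rootK4 = true :=
  ⟨_, ghFK4_0⟩

theorem hN0 : ∃ T, checkT (eNV Qe2b0 Qe1b0 Q3b0 7429) (regNV 149 10000 301 10000) [19, 19, 14, 4] T rootN0 = true :=
  ⟨_, (checkT_node ghN0_0 (checkT_node ghN0_1 (checkT_node (checkT_node ghN0_2 (checkT_node ghN0_3 ghN0_4)) ghN0_5)))⟩

theorem hN1 : ∃ T, checkT (eNV Qe2b1 Qe1b1 Q3b1 2794) (regNV 299 10000 601 10000) [19, 19, 14, 4] T rootN1 = true :=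
  ⟨_, (checkT_node ghN1_0 (checkT_node ghN1_1 (checkT_node ghN1_2 (checkT_node ghN1_3 ghN1_4))))⟩

theorem hN2 : ∃ T, checkT (eNV Qe2b2 Qe1b2 Q3b2 4854) (regNV 599 10000 1001 10000) [19, 19, 14, 4] T rootN2 = true :=
  ⟨_, (checkT_node ghN2_0 (checkT_node ghN2_1 (checkT_node ghN2_2 (checkT_node ghN2_3 (checkT_node (checkT_node (checkT_node ghN2_4 ghN2_5) ghN2_6) ghN2_7)))))⟩

theorem hN3 : ∃ T, checkT (eNV Qe2b3 Qe1b3 Q3b3 5101) (regNV 999 10000 1601 10000) [19, 19, 14, 4] T rootN3 = true :=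
  ⟨_, (checkT_node (checkT_node ghN3_0 ghN3_1) (checkT_node (checkT_node ghN3_2 ghN3_3) (checkT_node ghN3_4 (checkT_node (checkT_node ghN3_5 (checkT_node ghN3_6 (checkT_node ghN3_7 ghN3_8))) ghN3_9))))⟩

end Vale.Agent.Lib.P154N
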