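import Vale.Agent.Lib.P154N.Bulk

set_option linter.defProp false

/-!
Kernel checks: fits.
-/

namespace Vale.Agent.Lib.P154N

open Vale.Agent.Lib.Common.Kron Vale.Agent.Lib.Common.Kron.PE Vale.Agent.Lib.P154M

set_option maxRecDepth 100000 in
def ghLk1v2_7 : checkT (eLow Da 4 20 1 (-117) 639 8 Lk1v2) (regGe 9 200) [49, 49, 1, 1] (.node 0 (.node 0 .drop (.node 1 .drop (.node 0 .drop .leaf))) .leaf) (((((((((root2.upH 1).upH 1).upH 1).upH 0).lowH 0).lowH 1).lowH 0).upH 0).lowH 1) = true := by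
  decide +kernel

set_option maxRecDepth 100000 in
def ghLk1v2_8 : checkT (eLow Da 4 20 1 (-117) 639 8 Lk1v2) (regGe 9 200) [49, 49, 1, 1] (.node 0 (.node 0 .drop (.node 1 (.node 0 (.node 1 .drop .leaf) .leaf) .leaf)) .leaf) (((((((((root2.upH 1).upH 1).upH 1).upH 0).lowH 0).lowH 1).lowH 0).upH 0).upH 1) = true := by
  decide +kernel

set_option maxRecDepth 100000 in
def ghLk1v2_9 : checkT (eLow Da 4 20 1 (-117) 639 8 Lk1v2) (regGe 9 200) [49, 49, 1, 1] .leaf (((((((root2.upH 1).upH 1).upH 1).upH 0).lowH 0).lowH 1).upH 0) = true := by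
  decide +kernel

set_option maxRecDepth 100000 in
def ghLk1v2_10 : checkT (eLow Da 4 20 1 (-117) 639 8 Lk1v2) (regGe 9 200) [49, 49, 1, 1] (.node 0 .drop (.node 1 .drop (.node 0 .drop (.node 1 .drop (.node 0 .drop .leaf))))) ((((((((root2.upH 1).upH 1).upH 1).upH 0).lowH 0).upH 1).lowH 0).lowH 0) = true := by
  decide +kernel

set_option maxRecDepth 100000 in
def ghLk1v2_11 : checkT (eLow Da 4 20 1 (-117) 639 8 Lk1v2) (regGe 9 200) [49, 49, 1, 1] (.node 1 (.node 0 (.node 1 (.node 0 (.node 0 .drop .leaf) .leaf) .leaf) .leaf) .leaf) ((((((((root2.upH 1).upH 1).upH 1).upH 0).lowH 0).upH 1).lowH 0).upH 0) = true := by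
  decide +kernel

set_option maxRecDepth 100000 in
def ghLk1v2_12 : checkT (eLow Da 4 20 1 (-117) 639 8 Lk1v2) (regGe 9 200) [49, 49, 1, 1] .leaf (((((((root2.upH 1).upH 1).upH 1).upH 0).lowH 0).upH 1).upH 0) = true := by
  decide +kernel

set_option maxRecDepth 100000 in
def ghLk1v2_13 : checkT (eLow Da 4 20 1 (-117) 639 8 Lk1v2) (regGe 9 200) [49, 49, 1, 1] .leaf (((((root2.upH 1).upH 1).upH 1).upH 0).upH 0) = true := by
  decide +kernel

set_option maxRecDepth 100000 in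
def ghLk2v0_0 : checkT (eLow Da 4 15 72 (-150) 639 8 Lk2v0) (regBand 9 500 11 200) [49, 49, 1, 1] .leaf (root2.lowH 1) = true := by
  decide +kernel

set_option maxRecDepth 100000 in
def ghLk2v0_1 : checkT (eLow Da 4 15 72 (-150) 639 8 Lk2v0) (regBand 9 500 11 200) [49, 49, 1, 1] .drop (((root2.upH 1).lowH 1).lowH 0) = true := by
  decide +kernel

set_option maxRecDepth 100000 in
def ghLk2v0_2 : checkT (eLow Da 4 15 72 (-150) 639 8 Lk2v0) (regBand 9 500 11 200) [49, 49, 1, 1] (.node 0 .leaf (.node 1 .leaf (.node 0 .leaf (.node 1 (.node 0 .leaf .drop) .drop)))) ((((root2.upH 1).lowH 1).upH 0).lowH 1) = true := by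
  decide +kernel

set_option maxRecDepth 100000 in
def ghLk2v0_3 : checkT (eLow Da 4 15 72 (-150) 639 8 Lk2v0) (regBand 9 500 11 200) [49, 49, 1, 1] .leaf ((((((root2.upH 1).lowH 1).upH 0).upH 1).lowH 0).lowH 0) = true := by
  decide +kernel

set_option maxRecDepth 100000 in
def ghLk2v0_4 : checkT (eLow Da 4 15 72 (-150) 639 8 Lk2v0) (regBand 9 500 11 200) [49, 49, 1, 1] (.node 1 .leaf (.node 0 .leaf (.node 1 .leaf (.node 0 .leaf (.node 1 (.node 0 .leaf .drop) .drop))))) ((((((root2.upH 1).lowH 1).upH 0).upH 1).lowH 0).upH 0) = true := by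
  decide +kernel

set_option maxRecDepth 100000 in
def ghLk2v0_5 : checkT (eLow Da 4 15 72 (-150) 639 8 Lk2v0) (regBand 9 500 11 200) [49, 49, 1, 1] (.node 1 (.node 0 .leaf (.node 0 (.node 1 .leaf (.node 0 .leaf .drop)) .drop)) (.node 0 (.node 0 .leaf (.node 1 .leaf .drop)) .drop)) (((((((root2.upH 1).lowH 1).upH 0).upH 1).upH 0).lowH 1).lowH 0) = true := by
  decide +kernel

set_option maxRecDepth 100000 in
def ghLk2v0_6 : checkT (eLow Da 4 15 72 (-150) 639 8 Lk2v0) (regBand 9 500 11 200) [49, 49, 1, 1] .drop (((((((root2.upH 1).lowH 1).upH 0).upH 1).upH 0).lowH 1).upH 0) = true := by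
  decide +kernel

set_option maxRecDepth 100000 in
def ghLk2v0_7 : checkT (eLow Da 4 15 72 (-150) 639 8 Lk2v0) (regBand 9 500 11 200) [49, 49, 1, 1] (.node 0 (.node 0 (.node 1 (.node 0 (.node 1 (.node 0 .leaf .drop) .drop) .drop) .drop) .drop) .drop) ((((((root2.upH 1).lowH 1).upH 0).upH 1).upH 0).upH 1) = true := by
  decide +kernel

set_option maxRecDepth 100000 in
def ghLk2v0_8 : checkT (eLow Da 4 15 72 (-150) 639 8 Lk2v0) (regBand 9 500 11 200) [49, 49, 1, 1] (.node 1 .drop (.node 0 .drop (.node 1 (.node 0 .drop (.node 0 .drop (.node 0 .drop (.node 1 .drop .leaf)))) .leaf))) (((root2.upH 1).upH 1).lowH 0) = true := by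
  decide +kernel

set_option maxRecDepth 100000 in
def ghLk2v0_9 : checkT (eLow Da 4 15 72 (-150) 639 8 Lk2v0) (regBand 9 500 11 200) [49, 49, 1, 1] (.node 0 (.node 1 (.node 0 .drop .leaf) (.node 0 (.node 1 .drop (.node 0 .drop (.node 1 (.node 0 .drop .leaf) .leaf))) .leaf)) .leaf) ((((((root2.upH 1).upH 1).upH 0).lowH 1).lowH 0).lowH 0) = true := by
  decide +kernel

set_option maxRecDepth 100000 in
def ghLk2v0_10 : checkT (eLow Da 4 15 72 (-150) 639 8 Lk2v0) (regBand 9 500 11 200) [49, 49, 1, 1] (.node 0 .leaf (.node 1 .leaf (.node 0 .leaf (.node 1 (.node 0 .leaf (.node 1 .leaf .drop)) .drop)))) ((((((((root2.upH 1).upH 1).upH 0).lowH 1).lowH 0).upH 0).lowH 0).lowH 1) = true := by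
  decide +kernel

set_option maxRecDepth 100000 in
def ghLk2v0_11 : checkT (eLow Da 4 15 72 (-150) 639 8 Lk2v0) (regBand 9 500 11 200) [49, 49, 1, 1] (.node 1 .leaf (.node 0 (.node 0 .leaf (.node 1 .leaf (.node 0 .leaf .drop))) (.node 1 (.node 0 (.node 1 .leaf .drop) .drop) .drop))) (((((((((root2.upH 1).upH 1).upH 0).lowH 1).lowH 0).upH 0).lowH 0).upH 1).lowH 0) = true := by
  decide +kernel

set_option maxRecDepth 100000 in
def ghLk2v0_12 : checkT (eLow Da 4 15 72 (-150) 639 8 Lk2v0) (regBand 9 500 11 200) [49, 49, 1, 1] (.node 1 (.node 0 (.node 1 (.node 0 .leaf .drop) .drop) .drop) .drop) (((((((((root2.upH 1).upH 1).upH 0).lowH 1).lowH 0).upH 0).lowH 0).upH 1).upH 0) = true := by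
  decide +kernel

set_option maxRecDepth 100000 in
def ghLk2v0_13 : checkT (eLow Da 4 15 72 (-150) 639 8 Lk2v0) (regBand 9 500 11 200) [49, 49, 1, 1] (.node 1 (.node 1 (.node 0 (.node 1 (.node 0 .leaf (.node 0 .leaf .drop)) (.node 0 (.node 0 .leaf .drop) .drop)) .drop) .drop) .drop) (((((((root2.upH 1).upH 1).upH 0).lowH 1).lowH 0).upH 0).upH 0) = true := by
  decide +kernel

set_option maxRecDepth 100000 in
def ghLk2v0_14 : checkT (eLow Da 4 15 72 (-150) 639 8 Lk2v0) (regBand 9 500 11 200) [49, 49, 1, 1] .drop (((((root2.upH 1).upH 1).upH 0).lowH 1).upH 0) = true := by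
  decide +kernel

set_option maxRecDepth 100000 in
def ghLk2v0_15 : checkT (eLow Da 4 15 72 (-150) 639 8 Lk2v0) (regBand 9 500 11 200) [49, 49, 1, 1] (.node 0 (.node 0 (.node 1 (.node 1 (.node 0 .drop .leaf) .leaf) .leaf) .leaf) .leaf) ((((((((root2.upH 1).upH 1).upH 0).upH 1).lowH 0).lowH 0).lowH 0).lowH 1) = true := by
  decide +kernel

set_option maxRecDepth 100000 in
def ghLk2v0_16 : checkT (eLow Da 4 15 72 (-150) 639 8 Lk2v0) (regBand 9 500 11 200) [49, 49, 1, 1] (.node 0 (.node 1 .leaf (.node 0 .leaf .leaf)) .leaf) ((((((((root2.upH 1).upH 1).upH 0).upH 1).lowH 0).lowH 0).lowH 0).upH 1) = true := by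
  decide +kernel

set_option maxRecDepth 100000 in
def ghLk2v0_17 : checkT (eLow Da 4 15 72 (-150) 639 8 Lk2v0) (regBand 9 500 11 200) [49, 49, 1, 1] (.node 0 .leaf (.node 0 .leaf (.node 1 .leaf (.node 0 (.node 1 .leaf .drop) .drop)))) ((((((((root2.upH 1).upH 1).upH 0).upH 1).lowH 0).lowH 0).upH 0).lowH 1) = true := by
  decide +kernel

end Vale.Agent.Lib.P154N
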