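import Vale.Agent.Lib.P154N.Bulk

set_option linter.defProp false

/-!
Kernel checks: fits.
-/

namespace Vale.Agent.Lib.P154N

open Vale.Agent.Lib.Common.Kron Vale.Agent.Lib.Common.Kron.PE Vale.Agent.Lib.P154M

set_option maxRecDepth 100000 in
def ghUe1_15 : checkT (eUp Du 4 (-1) 4 0 (-9) 10 Ue1) (regMgt 2 1) [61, 61, 1, 1] (.node 0 (.node 1 .drop (.node 0 (.node 1 .drop .leaf) .leaf)) (.node 1 (.node 0 (.node 1 .drop .leaf) .leaf) .leaf)) ((((((((((rootC.upH 0).lowH 1).lowH 1).upH 0).upH 1).upH 0).lowH 0).lowH 1).lowH 0).lowH 1) = true := by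
  decide +kernel

set_option maxRecDepth 100000 in
def ghUe1_16 : checkT (eUp Du 4 (-1) 4 0 (-9) 10 Ue1) (regMgt 2 1) [61, 61, 1, 1] .leaf ((((((((((rootC.upH 0).lowH 1).lowH 1).upH 0).upH 1).upH 0).lowH 0).lowH 1).lowH 0).upH 1) = true := by
  decide +kernel

set_option maxRecDepth 100000 in
def ghUe1_17 : checkT (eUp Du 4 (-1) 4 0 (-9) 10 Ue1) (regMgt 2 1) [61, 61, 1, 1] .leaf (((((((((rootC.upH 0).lowH 1).lowH 1).upH 0).upH 1).upH 0).lowH 0).lowH 1).upH 0) = true := by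
  decide +kernel

set_option maxRecDepth 100000 in
def ghUe1_18 : checkT (eUp Du 4 (-1) 4 0 (-9) 10 Ue1) (regMgt 2 1) [61, 61, 1, 1] .leaf ((((((((rootC.upH 0).lowH 1).lowH 1).upH 0).upH 1).upH 0).lowH 0).upH 1) = true := by
  decide +kernel

set_option maxRecDepth 100000 in
def ghUe1_19 : checkT (eUp Du 4 (-1) 4 0 (-9) 10 Ue1) (regMgt 2 1) [61, 61, 1, 1] .leaf (((((((rootC.upH 0).lowH 1).lowH 1).upH 0).upH 1).upH 0).upH 0) = true := by
  decide +kernel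

set_option maxRecDepth 100000 in
def ghUe1_20 : checkT (eUp Du 4 (-1) 4 0 (-9) 10 Ue1) (regMgt 2 1) [61, 61, 1, 1] (.node 1 (.node 0 .drop (.node 1 (.node 0 .drop (.node 1 .drop (.node 0 .drop (.node 1 .drop .leaf)))) (.node 0 .drop .leaf))) (.node 0 (.node 1 .drop .leaf) .leaf)) ((((rootC.upH 0).lowH 1).upH 1).lowH 0) = true := by
  decide +kernel

set_option maxRecDepth 100000 in
def ghUe1_21 : checkT (eUp Du 4 (-1) 4 0 (-9) 10 Ue1) (regMgt 2 1) [61, 61, 1, 1] (.node 1 (.node 0 (.node 1 (.node 0 (.node 1 .drop .leaf) .leaf) .leaf) .leaf) .leaf) ((((((rootC.upH 0).lowH 1).upH 1).upH 0).lowH 1).lowH 0) = true := by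
  decide +kernel

set_option maxRecDepth 100000 in
def ghUe1_22 : checkT (eUp Du 4 (-1) 4 0 (-9) 10 Ue1) (regMgt 2 1) [61, 61, 1, 1] .leaf ((((((rootC.upH 0).lowH 1).upH 1).upH 0).lowH 1).upH 0) = true := by
  decide +kernel

set_option maxRecDepth 100000 in
def ghUe1_23 : checkT (eUp Du 4 (-1) 4 0 (-9) 10 Ue1) (regMgt 2 1) [61, 61, 1, 1] .leaf (((((rootC.upH 0).lowH 1).upH 1).upH 0).upH 1) = true := by
  decide +kernel

set_option maxRecDepth 100000 in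
def ghUe1_24 : checkT (eUp Du 4 (-1) 4 0 (-9) 10 Ue1) (regMgt 2 1) [61, 61, 1, 1] .leaf ((rootC.upH 0).upH 1) = true := by
  decide +kernel

set_option maxRecDepth 100000 in
def ghU3_0 : checkT (eUp Du 1 1 0 0 (-3) 10 U3) (regMgt 2 1) [61, 61, 1, 1] .drop (((rootC.lowH 0).lowH 0).lowH 1) = true := by
  decide +kernel

set_option maxRecDepth 100000 in
def ghU3_1 : checkT (eUp Du 1 1 0 0 (-3) 10 U3) (regMgt 2 1) [61, 61, 1, 1] (.node 1 .drop (.node 0 (.node 1 (.node 0 (.node 0 (.node 1 .drop .leaf) .leaf) .leaf) .leaf) .leaf)) ((((rootC.lowH 0).lowH 0).upH 1).lowH 0) = true := by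
  decide +kernel

set_option maxRecDepth 100000 in
def ghU3_2 : checkT (eUp Du 1 1 0 0 (-3) 10 U3) (regMgt 2 1) [61, 61, 1, 1] .leaf ((((rootC.lowH 0).lowH 0).upH 1).upH 0) = true := by
  decide +kernel

set_option maxRecDepth 100000 in
def ghU3_3 : checkT (eUp Du 1 1 0 0 (-3) 10 U3) (regMgt 2 1) [61, 61, 1, 1] .leaf ((rootC.lowH 0).upH 0) = true := by
  decide +kernel

set_option maxRecDepth 100000 in
def ghU3_4 : checkT (eUp Du 1 1 0 0 (-3) 10 U3) (regMgt 2 1) [61, 61, 1, 1] (.node 1 (.node 0 .drop (.node 1 .leaf .leaf)) (.node 0 .leaf .leaf)) ((rootC.upH 0).lowH 1) = true := by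
  decide +kernel

set_option maxRecDepth 100000 in
def ghU3_5 : checkT (eUp Du 1 1 0 0 (-3) 10 U3) (regMgt 2 1) [61, 61, 1, 1] (.node 0 (.node 0 .leaf .leaf) .leaf) ((rootC.upH 0).upH 1) = true := by
  decide +kernel

set_option maxRecDepth 100000 in
def ghE_0 : checkT (eHE chX1 chX2 chX3) (regMgt 2 1) [37, 37, 1, 1] .leaf rootC = true := by
  decide +kernel

set_option maxRecDepth 100000 in
def ghQe2b0_0 : checkT (eQUp Dq 12 1 0 (-6) 33 3 Qe2b0) (regMgt 1199 597) [19, 19, 1, 1] .drop (rootQ0.lowH 1) = true := by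
  decide +kernel

set_option maxRecDepth 100000 in
def ghQe2b0_1 : checkT (eQUp Dq 12 1 0 (-6) 33 3 Qe2b0) (regMgt 1199 597) [19, 19, 1, 1] (.node 1 .drop (.node 0 (.node 1 .drop (.node 0 (.node 0 (.node 1 .drop .leaf) .leaf) .leaf)) (.node 1 .drop (.node 0 .leaf (.node 1 .drop .leaf))))) ((rootQ0.upH 1).lowH 0) = true := by
  decide +kernel

set_option maxRecDepth 100000 in
def ghQe2b0_2 : checkT (eQUp Dq 12 1 0 (-6) 33 3 Qe2b0) (regMgt 1199 597) [19, 19, 1, 1] (.node 1 .drop (.node 0 (.node 1 .drop (.node 0 (.node 1 .drop .leaf) (.node 1 (.node 0 (.node 1 .drop .leaf) .leaf) .leaf))) (.node 0 (.node 1 .drop .leaf) (.node 1 .drop .leaf)))) ((rootQ0.upH 1).upH 0) = true := by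
  decide +kernel

set_option maxRecDepth 100000 in
def ghQe1b0_0 : checkT (eQUp Dq 4 (-1) 4 0 (-9) 3 Qe1b0) (regMgt 1199 597) [19, 19, 1, 1] (.node 0 .leaf .leaf) rootQ0 = true := by
  decide +kernel

set_option maxRecDepth 100000 in
def ghQ3b0_0 : checkT (eQUp Dq 1 1 0 0 (-3) 3 Q3b0) (regMgt 1199 597) [19, 19, 1, 1] .drop ((rootQ0.lowH 0).lowH 1) = true := by
  decide +kernel

set_option maxRecDepth 100000 in
def ghQ3b0_1 : checkT (eQUp Dq 1 1 0 0 (-3) 3 Q3b0) (regMgt 1199 597) [19, 19, 1, 1] (.node 0 (.node 1 .drop (.node 0 (.node 1 .drop (.node 0 (.node 0 (.node 1 .drop .leaf) .leaf) .leaf)) .leaf)) (.node 1 .drop .leaf)) (((rootQ0.lowH 0).upH 1).lowH 0) = true := by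
  decide +kernel

set_option maxRecDepth 100000 in
def ghQ3b0_2 : checkT (eQUp Dq 1 1 0 0 (-3) 3 Q3b0) (regMgt 1199 597) [19, 19, 1, 1] (.node 1 .drop (.node 0 .leaf (.node 1 .drop .leaf))) (((rootQ0.lowH 0).upH 1).upH 0) = true := by
  decide +kernel

set_option maxRecDepth 100000 in
def ghQ3b0_3 : checkT (eQUp Dq 1 1 0 0 (-3) 3 Q3b0) (regMgt 1199 597) [19, 19, 1, 1] (.node 1 .drop (.node 0 (.node 1 .drop (.node 0 (.node 1 .drop .leaf) (.node 1 .drop .leaf))) (.node 0 (.node 1 .drop .leaf) (.node 1 .drop .leaf)))) (rootQ0.upH 0) = true := by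
  decide +kernel

set_option maxRecDepth 100000 in
def ghEpb0_0 : checkT (eQUp Dq 4 1 (-4) 0 9 1 Ep0) (regMgt 1199 597) [7, 7, 1, 1] (.node 0 (.node 0 (.node 0 (.node 1 .drop (.node 0 (.node 0 (.node 1 .drop (.node 0 (.node 1 .drop .leaf) .leaf)) .leaf) .leaf)) .leaf) .leaf) .leaf) rootQ0 = true := by
  decide +kernel

set_option maxRecDepth 100000 in
def ghEmb0_0 : checkT (eQUp Dq 4 (-1) 4 0 (-9) 1 Ep0) (regMgt 1199 597) [7, 7, 1, 1] .leaf rootQ0 = true := by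
  decide +kernel

set_option maxRecDepth 100000 in
def ghQe2b1_0 : checkT (eQUp Dq 12 1 0 (-6) 33 3 Qe2b1) (regMgt 1199 597) [19, 19, 1, 1] .drop (rootQ1.lowH 1) = true := by
  decide +kernel

set_option maxRecDepth 100000 in
def ghQe2b1_1 : checkT (eQUp Dq 12 1 0 (-6) 33 3 Qe2b1) (regMgt 1199 597) [19, 19, 1, 1] (.node 1 .drop (.node 0 (.node 1 (.node 0 .drop .leaf) .leaf) (.node 1 (.node 1 .drop .leaf) .leaf))) ((rootQ1.upH 1).lowH 0) = true := by
  decide +kernel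

set_option maxRecDepth 100000 in
def ghQe2b1_2 : checkT (eQUp Dq 12 1 0 (-6) 33 3 Qe2b1) (regMgt 1199 597) [19, 19, 1, 1] (.node 1 .drop (.node 1 .drop (.node 0 .drop (.node 1 .drop (.node 0 .drop (.node 1 (.node 0 .drop (.node 1 .drop .leaf)) .leaf)))))) (((rootQ1.upH 1).upH 0).lowH 1) = true := by
  decide +kernel

set_option maxRecDepth 100000 in
def ghQe2b1_3 : checkT (eQUp Dq 12 1 0 (-6) 33 3 Qe2b1) (regMgt 1199 597) [19, 19, 1, 1] (.node 1 (.node 1 .drop .leaf) .leaf) (((((rootQ1.upH 1).upH 0).upH 1).lowH 1).lowH 0) = true := by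
  decide +kernel

set_option maxRecDepth 100000 in
def ghQe2b1_4 : checkT (eQUp Dq 12 1 0 (-6) 33 3 Qe2b1) (regMgt 1199 597) [19, 19, 1, 1] (.node 1 (.node 0 (.node 1 (.node 0 (.node 1 .drop .leaf) (.node 1 (.node 0 (.node 1 .drop .leaf) .leaf) .leaf)) .leaf) .leaf) .leaf) (((((rootQ1.upH 1).upH 0).upH 1).lowH 1).upH 0) = true := by
  decide +kernel

set_option maxRecDepth 100000 in
def ghQe2b1_5 : checkT (eQUp Dq 12 1 0 (-6) 33 3 Qe2b1) (regMgt 1199 597) [19, 19, 1, 1] .leaf ((((rootQ1.upH 1).upH 0).upH 1).upH 1) = true := by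
  decide +kernel

set_option maxRecDepth 100000 in
def ghQe1b1_0 : checkT (eQUp Dq 4 (-1) 4 0 (-9) 3 Qe1b1) (regMgt 1199 597) [19, 19, 1, 1] (.node 0 .leaf .leaf) rootQ1 = true := by
  decide +kernel

set_option maxRecDepth 100000 in
def ghQ3b1_0 : checkT (eQUp Dq 1 1 0 0 (-3) 3 Q3b1) (regMgt 1199 597) [19, 19, 1, 1] (.node 1 .drop (.node 0 (.node 0 (.node 1 .drop (.node 0 (.node 1 .drop .leaf) .leaf)) (.node 1 .drop .leaf)) (.node 1 .drop .leaf))) (rootQ1.lowH 0) = true := by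
  decide +kernel

set_option maxRecDepth 100000 in
def ghQ3b1_1 : checkT (eQUp Dq 1 1 0 0 (-3) 3 Q3b1) (regMgt 1199 597) [19, 19, 1, 1] .drop ((rootQ1.upH 0).lowH 1) = true := by
  decide +kernel

set_option maxRecDepth 100000 in
def ghQ3b1_2 : checkT (eQUp Dq 1 1 0 0 (-3) 3 Q3b1) (regMgt 1199 597) [19, 19, 1, 1] (.node 1 .drop (.node 0 (.node 1 (.node 1 (.node 0 .drop (.node 1 .drop .leaf)) .leaf) .leaf) (.node 1 (.node 0 (.node 1 (.node 1 .drop .leaf) .leaf) .leaf) .leaf))) (((rootQ1.upH 0).upH 1).lowH 0) = true := by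
  decide +kernel

set_option maxRecDepth 100000 in
def ghQ3b1_3 : checkT (eQUp Dq 1 1 0 0 (-3) 3 Q3b1) (regMgt 1199 597) [19, 19, 1, 1] (.node 0 (.node 1 .drop .leaf) (.node 1 (.node 1 .drop .leaf) .leaf)) (((rootQ1.upH 0).upH 1).upH 0) = true := by
  decide +kernel

set_option maxRecDepth 100000 in
def ghEpb1_0 : checkT (eQUp Dq 4 1 (-4) 0 9 1 Ep1) (regMgt 1199 597) [7, 7, 1, 1] .leaf rootQ1 = true := by
  decide +kernel

set_option maxRecDepth 100000 in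
def ghEmb1_0 : checkT (eQUp Dq 4 (-1) 4 0 (-9) 1 Ep1) (regMgt 1199 597) [7, 7, 1, 1] .leaf rootQ1 = true := by
  decide +kernel

set_option maxRecDepth 100000 in
def ghQe2b2_0 : checkT (eQUp Dq 12 1 0 (-6) 33 3 Qe2b2) (regMgt 1199 597) [19, 19, 1, 1] (.node 1 .drop (.node 1 .drop (.node 0 .drop (.node 1 .drop (.node 0 .drop (.node 1 .drop (.node 0 .drop (.node 1 .drop (.node 0 .drop (.node 0 .drop (.node 1 .drop .leaf))))))))))) (rootQ2.lowH 1) = true := by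
  decide +kernel

set_option maxRecDepth 100000 in
def ghQe2b2_1 : checkT (eQUp Dq 12 1 0 (-6) 33 3 Qe2b2) (regMgt 1199 597) [19, 19, 1, 1] (.node 1 .drop .leaf) (((rootQ2.upH 1).lowH 1).lowH 0) = true := by
  decide +kernel

set_option maxRecDepth 100000 in
def ghQe2b2_2 : checkT (eQUp Dq 12 1 0 (-6) 33 3 Qe2b2) (regMgt 1199 597) [19, 19, 1, 1] (.node 1 .drop .leaf) (((((rootQ2.upH 1).lowH 1).upH 0).lowH 1).lowH 0) = true := by
  decide +kernel

set_option maxRecDepth 100000 in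
def ghQe2b2_3 : checkT (eQUp Dq 12 1 0 (-6) 33 3 Qe2b2) (regMgt 1199 597) [19, 19, 1, 1] (.node 1 (.node 0 (.node 1 (.node 1 .drop (.node 0 .drop .leaf)) .leaf) (.node 1 (.node 0 (.node 1 (.node 1 .drop .leaf) .leaf) .leaf) .leaf)) .leaf) (((((rootQ2.upH 1).lowH 1).upH 0).lowH 1).upH 0) = true := by
  decide +kernel

set_option maxRecDepth 100000 in
def ghQe2b2_4 : checkT (eQUp Dq 12 1 0 (-6) 33 3 Qe2b2) (regMgt 1199 597) [19, 19, 1, 1] .leaf ((((rootQ2.upH 1).lowH 1).upH 0).upH 1) = true := by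
  decide +kernel

set_option maxRecDepth 100000 in
def ghQe2b2_5 : checkT (eQUp Dq 12 1 0 (-6) 33 3 Qe2b2) (regMgt 1199 597) [19, 19, 1, 1] .leaf ((rootQ2.upH 1).upH 1) = true := by
  decide +kernel

set_option maxRecDepth 100000 in
def ghQe1b2_0 : checkT (eQUp Dq 4 (-1) 4 0 (-9) 3 Qe1b2) (regMgt 1199 597) [19, 19, 1, 1] .leaf rootQ2 = true := by
  decide +kernel

set_option maxRecDepth 100000 in
def ghQ3b2_0 : checkT (eQUp Dq 1 1 0 0 (-3) 3 Q3b2) (regMgt 1199 597) [19, 19, 1, 1] (.node 0 .drop (.node 1 .drop (.node 1 .drop (.node 0 .drop (.node 1 .drop (.node 0 .drop (.node 1 .drop (.node 0 .drop (.node 1 .drop (.node 0 .drop .leaf)))))))))) (rootQ2.lowH 1) = true := by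
  decide +kernel

set_option maxRecDepth 100000 in
def ghQ3b2_1 : checkT (eQUp Dq 1 1 0 0 (-3) 3 Q3b2) (regMgt 1199 597) [19, 19, 1, 1] (.node 0 (.node 1 (.node 0 (.node 1 .drop .leaf) .leaf) .leaf) (.node 1 (.node 1 .drop .leaf) .leaf)) ((rootQ2.upH 1).lowH 0) = true := by
  decide +kernel

set_option maxRecDepth 100000 in
def ghQ3b2_2 : checkT (eQUp Dq 1 1 0 0 (-3) 3 Q3b2) (regMgt 1199 597) [19, 19, 1, 1] (.node 1 .drop .leaf) (((((rootQ2.upH 1).upH 0).lowH 1).lowH 1).lowH 0) = true := by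
  decide +kernel

set_option maxRecDepth 100000 in
def ghQ3b2_3 : checkT (eQUp Dq 1 1 0 0 (-3) 3 Q3b2) (regMgt 1199 597) [19, 19, 1, 1] (.node 0 .drop (.node 1 .drop (.node 0 .drop (.node 1 .drop .leaf)))) ((((((((rootQ2.upH 1).upH 0).lowH 1).lowH 1).upH 0).lowH 1).lowH 0).lowH 1) = true := by
  decide +kernel

set_option maxRecDepth 100000 in
def ghQ3b2_4 : checkT (eQUp Dq 1 1 0 0 (-3) 3 Q3b2) (regMgt 1199 597) [19, 19, 1, 1] (.node 0 (.node 1 .drop (.node 0 (.node 1 .drop .leaf) .leaf)) (.node 1 (.node 0 (.node 1 (.node 0 .drop .leaf) .leaf) .leaf) .leaf)) ((((((((rootQ2.upH 1).upH 0).lowH 1).lowH 1).upH 0).lowH 1).lowH 0).upH 1) = true := by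
  decide +kernel

set_option maxRecDepth 100000 in
def ghQ3b2_5 : checkT (eQUp Dq 1 1 0 0 (-3) 3 Q3b2) (regMgt 1199 597) [19, 19, 1, 1] (.node 1 (.node 0 (.node 1 (.node 0 .drop .leaf) .leaf) .leaf) .leaf) (((((((rootQ2.upH 1).upH 0).lowH 1).lowH 1).upH 0).lowH 1).upH 0) = true := by
  decide +kernel

set_option maxRecDepth 100000 in
def ghQ3b2_6 : checkT (eQUp Dq 1 1 0 0 (-3) 3 Q3b2) (regMgt 1199 597) [19, 19, 1, 1] .leaf ((((((rootQ2.upH 1).upH 0).lowH 1).lowH 1).upH 0).upH 1) = true := by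
  decide +kernel

set_option maxRecDepth 100000 in
def ghQ3b2_7 : checkT (eQUp Dq 1 1 0 0 (-3) 3 Q3b2) (regMgt 1199 597) [19, 19, 1, 1] .leaf ((((rootQ2.upH 1).upH 0).lowH 1).upH 1) = true := by
  decide +kernel

set_option maxRecDepth 100000 in
def ghQ3b2_8 : checkT (eQUp Dq 1 1 0 0 (-3) 3 Q3b2) (regMgt 1199 597) [19, 19, 1, 1] .leaf (((rootQ2.upH 1).upH 0).upH 1) = true := by
  decide +kernel

set_option maxRecDepth 100000 in
def ghEpb2_0 : checkT (eQUp Dq 4 1 (-4) 0 9 1 Ep2) (regMgt 1199 597) [7, 7, 1, 1] .leaf rootQ2 = true := by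
  decide +kernel

set_option maxRecDepth 100000 in
def ghEmb2_0 : checkT (eQUp Dq 4 (-1) 4 0 (-9) 1 Ep2) (regMgt 1199 597) [7, 7, 1, 1] .leaf rootQ2 = true := by
  decide +kernel

set_option maxRecDepth 100000 in
def ghQe2b3_0 : checkT (eQUp Dq 12 1 0 (-6) 33 3 Qe2b3) (regMgt 1199 597) [19, 19, 1, 1] (.node 1 .drop (.node 0 (.node 0 .leaf (.node 1 .drop .leaf)) (.node 1 (.node 1 .drop (.node 0 .drop (.node 1 .drop .leaf))) .leaf))) ((rootQ3.lowH 1).lowH 0) = true := by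
  decide +kernel

set_option maxRecDepth 100000 in
def ghQe2b3_1 : checkT (eQUp Dq 12 1 0 (-6) 33 3 Qe2b3) (regMgt 1199 597) [19, 19, 1, 1] .drop ((((rootQ3.lowH 1).upH 0).lowH 1).lowH 1) = true := by
  decide +kernel

set_option maxRecDepth 100000 in
def ghQe2b3_2 : checkT (eQUp Dq 12 1 0 (-6) 33 3 Qe2b3) (regMgt 1199 597) [19, 19, 1, 1] (.node 1 .drop (.node 0 .drop (.node 1 .drop (.node 0 .drop (.node 1 .drop (.node 0 .drop (.node 1 .drop (.node 0 .drop .leaf)))))))) (((((rootQ3.lowH 1).upH 0).lowH 1).upH 1).lowH 0) = true := by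
  decide +kernel

set_option maxRecDepth 100000 in
def ghQe2b3_3 : checkT (eQUp Dq 12 1 0 (-6) 33 3 Qe2b3) (regMgt 1199 597) [19, 19, 1, 1] .drop (((((((rootQ3.lowH 1).upH 0).lowH 1).upH 1).upH 0).lowH 1).lowH 0) = true := by
  decide +kernel

set_option maxRecDepth 100000 in
def ghQe2b3_4 : checkT (eQUp Dq 12 1 0 (-6) 33 3 Qe2b3) (regMgt 1199 597) [19, 19, 1, 1] (.node 0 .drop (.node 1 (.node 0 .drop (.node 1 .drop .leaf)) (.node 0 (.node 1 .drop .leaf) .leaf))) ((((((((rootQ3.lowH 1).upH 0).lowH 1).upH 1).upH 0).lowH 1).upH 0).lowH 1) = true := by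
  decide +kernel

set_option maxRecDepth 100000 in
def ghQe2b3_5 : checkT (eQUp Dq 12 1 0 (-6) 33 3 Qe2b3) (regMgt 1199 597) [19, 19, 1, 1] (.node 0 (.node 1 (.node 0 .drop (.node 1 (.node 0 .drop .leaf) .leaf)) (.node 0 (.node 1 (.node 0 .drop .leaf) .leaf) .leaf)) .leaf) ((((((((rootQ3.lowH 1).upH 0).lowH 1).upH 1).upH 0).lowH 1).upH 0).upH 1) = true := by
  decide +kernel

set_option maxRecDepth 100000 in
def ghQe2b3_6 : checkT (eQUp Dq 12 1 0 (-6) 33 3 Qe2b3) (regMgt 1199 597) [19, 19, 1, 1] .drop (((((((((rootQ3.lowH 1).upH 0).lowH 1).upH 1).upH 0).upH 1).lowH 0).lowH 0).lowH 1) = true := by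
  decide +kernel

set_option maxRecDepth 100000 in
def ghQe2b3_7 : checkT (eQUp Dq 12 1 0 (-6) 33 3 Qe2b3) (regMgt 1199 597) [19, 19, 1, 1] (.node 1 (.node 1 .drop (.node 0 .drop (.node 1 .drop .leaf))) (.node 0 (.node 1 (.node 1 .drop .leaf) .leaf) .leaf)) ((((((((((rootQ3.lowH 1).upH 0).lowH 1).upH 1).upH 0).upH 1).lowH 0).lowH 0).upH 1).lowH 0) = true := by
  decide +kernel

set_option maxRecDepth 100000 in
def ghQe2b3_8 : checkT (eQUp Dq 12 1 0 (-6) 33 3 Qe2b3) (regMgt 1199 597) [19, 19, 1, 1] (.node 1 (.node 0 (.node 1 (.node 0 .drop .leaf) .leaf) .leaf) .leaf) ((((((((((rootQ3.lowH 1).upH 0).lowH 1).upH 1).upH 0).upH 1).lowH 0).lowH 0).upH 1).upH 0) = true := by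
  decide +kernel

set_option maxRecDepth 100000 in
def ghQe2b3_9 : checkT (eQUp Dq 12 1 0 (-6) 33 3 Qe2b3) (regMgt 1199 597) [19, 19, 1, 1] (.node 1 (.node 0 (.node 1 .drop (.node 0 (.node 1 .drop .leaf) .leaf)) (.node 1 (.node 0 (.node 1 .drop .leaf) .leaf) .leaf)) .leaf) ((((((((rootQ3.lowH 1).upH 0).lowH 1).upH 1).upH 0).upH 1).lowH 0).upH 0) = true := by
  decide +kernel

set_option maxRecDepth 100000 in
def ghQe2b3_10 : checkT (eQUp Dq 12 1 0 (-6) 33 3 Qe2b3) (regMgt 1199 597) [19, 19, 1, 1] .leaf (((((((rootQ3.lowH 1).upH 0).lowH 1).upH 1).upH 0).upH 1).upH 0) = true := by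
  decide +kernel

set_option maxRecDepth 100000 in
def ghQe2b3_11 : checkT (eQUp Dq 12 1 0 (-6) 33 3 Qe2b3) (regMgt 1199 597) [19, 19, 1, 1] (.node 1 .drop (.node 0 .drop (.node 1 .drop (.node 0 (.node 1 .drop (.node 0 .drop (.node 1 .drop .leaf))) (.node 1 (.node 0 (.node 1 .drop (.node 0 .drop .leaf)) .leaf) .leaf))))) (((((((rootQ3.lowH 1).upH 0).upH 1).lowH 0).lowH 1).lowH 0).lowH 1) = true := by
  decide +kernel

end Vale.Agent.Lib.P154N
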