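import Vale.Agent.Lib.P154N.Bulk

set_option linter.defProp false

/-!
Kernel checks: fits.
-/

namespace Vale.Agent.Lib.P154N

open Vale.Agent.Lib.Common.Kron Vale.Agent.Lib.Common.Kron.PE Vale.Agent.Lib.P154M

set_option maxRecDepth 100000 in
def ghQe2b3_12 : checkT (eQUp Dq 12 1 0 (-6) 33 3 Qe2b3) (regMgt 1199 597) [19, 19, 1, 1] (.node 1 (.node 0 (.node 1 (.node 0 .drop (.node 1 .drop .leaf)) .leaf) .leaf) .leaf) (((((((rootQ3.lowH 1).upH 0).upH 1).lowH 0).lowH 1).lowH 0).upH 1) = true := by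
  decide +kernel

set_option maxRecDepth 100000 in
def ghQe2b3_13 : checkT (eQUp Dq 12 1 0 (-6) 33 3 Qe2b3) (regMgt 1199 597) [19, 19, 1, 1] (.node 1 .drop (.node 0 .drop (.node 1 (.node 0 .drop (.node 1 .drop (.node 0 .drop .leaf))) (.node 0 (.node 1 .drop .leaf) .leaf)))) (((((((((rootQ3.lowH 1).upH 0).upH 1).lowH 0).lowH 1).upH 0).lowH 1).lowH 1).lowH 0) = true := by
  decide +kernel

set_option maxRecDepth 100000 in
def ghQe2b3_14 : checkT (eQUp Dq 12 1 0 (-6) 33 3 Qe2b3) (regMgt 1199 597) [19, 19, 1, 1] (.node 1 (.node 0 (.node 1 .drop (.node 0 (.node 1 .drop (.node 0 .drop .leaf)) .leaf)) .leaf) .leaf) (((((((((rootQ3.lowH 1).upH 0).upH 1).lowH 0).lowH 1).upH 0).lowH 1).lowH 1).upH 0) = true := by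
  decide +kernel

set_option maxRecDepth 100000 in
def ghQe2b3_15 : checkT (eQUp Dq 12 1 0 (-6) 33 3 Qe2b3) (regMgt 1199 597) [19, 19, 1, 1] (.node 1 (.node 0 (.node 1 (.node 0 .drop (.node 1 (.node 0 .drop .leaf) .leaf)) (.node 0 (.node 1 (.node 0 .drop .leaf) .leaf) .leaf)) .leaf) .leaf) (((((((((rootQ3.lowH 1).upH 0).upH 1).lowH 0).lowH 1).upH 0).lowH 1).upH 1).lowH 0) = true := by
  decide +kernel

set_option maxRecDepth 100000 in
def ghQe2b3_16 : checkT (eQUp Dq 12 1 0 (-6) 33 3 Qe2b3) (regMgt 1199 597) [19, 19, 1, 1] .leaf (((((((((rootQ3.lowH 1).upH 0).upH 1).lowH 0).lowH 1).upH 0).lowH 1).upH 1).upH 0) = true := by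
  decide +kernel

set_option maxRecDepth 100000 in
def ghQe2b3_17 : checkT (eQUp Dq 12 1 0 (-6) 33 3 Qe2b3) (regMgt 1199 597) [19, 19, 1, 1] .leaf (((((((rootQ3.lowH 1).upH 0).upH 1).lowH 0).lowH 1).upH 0).upH 1) = true := by
  decide +kernel

set_option maxRecDepth 100000 in
def ghQe2b3_18 : checkT (eQUp Dq 12 1 0 (-6) 33 3 Qe2b3) (regMgt 1199 597) [19, 19, 1, 1] .leaf (((((rootQ3.lowH 1).upH 0).upH 1).lowH 0).upH 1) = true := by
  decide +kernel

set_option maxRecDepth 100000 in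
def ghQe2b3_19 : checkT (eQUp Dq 12 1 0 (-6) 33 3 Qe2b3) (regMgt 1199 597) [19, 19, 1, 1] .leaf ((((rootQ3.lowH 1).upH 0).upH 1).upH 0) = true := by
  decide +kernel

set_option maxRecDepth 100000 in
def ghQe2b3_20 : checkT (eQUp Dq 12 1 0 (-6) 33 3 Qe2b3) (regMgt 1199 597) [19, 19, 1, 1] .leaf (rootQ3.upH 1) = true := by
  decide +kernel

set_option maxRecDepth 100000 in
def ghQe1b3_0 : checkT (eQUp Dq 4 (-1) 4 0 (-9) 3 Qe1b3) (regMgt 1199 597) [19, 19, 1, 1] .leaf rootQ3 = true := by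
  decide +kernel

set_option maxRecDepth 100000 in
def ghQ3b3_0 : checkT (eQUp Dq 1 1 0 0 (-3) 3 Q3b3) (regMgt 1199 597) [19, 19, 1, 1] (.node 1 .drop (.node 0 .leaf (.node 1 (.node 0 .drop (.node 1 .drop .leaf)) .leaf))) ((rootQ3.lowH 1).lowH 0) = true := by
  decide +kernel

set_option maxRecDepth 100000 in
def ghQ3b3_1 : checkT (eQUp Dq 1 1 0 0 (-3) 3 Q3b3) (regMgt 1199 597) [19, 19, 1, 1] (.node 1 .drop (.node 1 .drop (.node 0 .drop (.node 1 .drop (.node 0 .drop (.node 1 .drop (.node 0 .drop (.node 1 .drop (.node 0 .drop (.node 1 (.node 0 .drop .leaf) .leaf)))))))))) ((((rootQ3.lowH 1).upH 0).lowH 1).lowH 0) = true := by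
  decide +kernel

set_option maxRecDepth 100000 in
def ghQ3b3_2 : checkT (eQUp Dq 1 1 0 0 (-3) 3 Q3b3) (regMgt 1199 597) [19, 19, 1, 1] .drop (((((rootQ3.lowH 1).upH 0).lowH 1).upH 0).lowH 1) = true := by
  decide +kernel

set_option maxRecDepth 100000 in
def ghQ3b3_3 : checkT (eQUp Dq 1 1 0 0 (-3) 3 Q3b3) (regMgt 1199 597) [19, 19, 1, 1] .drop (((((((rootQ3.lowH 1).upH 0).lowH 1).upH 0).upH 1).lowH 0).lowH 1) = true := by
  decide +kernel

set_option maxRecDepth 100000 in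
def ghQ3b3_4 : checkT (eQUp Dq 1 1 0 0 (-3) 3 Q3b3) (regMgt 1199 597) [19, 19, 1, 1] .drop (((((((((rootQ3.lowH 1).upH 0).lowH 1).upH 0).upH 1).lowH 0).upH 1).lowH 0).lowH 1) = true := by
  decide +kernel

set_option maxRecDepth 100000 in
def ghQ3b3_5 : checkT (eQUp Dq 1 1 0 0 (-3) 3 Q3b3) (regMgt 1199 597) [19, 19, 1, 1] (.node 1 (.node 0 .drop (.node 1 .drop (.node 0 .drop .leaf))) (.node 0 (.node 1 (.node 1 .drop .leaf) .leaf) .leaf)) ((((((((((rootQ3.lowH 1).upH 0).lowH 1).upH 0).upH 1).lowH 0).upH 1).lowH 0).upH 1).lowH 0) = true := by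
  decide +kernel

set_option maxRecDepth 100000 in
def ghQ3b3_6 : checkT (eQUp Dq 1 1 0 0 (-3) 3 Q3b3) (regMgt 1199 597) [19, 19, 1, 1] (.node 1 (.node 0 (.node 1 (.node 0 .drop .leaf) .leaf) .leaf) .leaf) ((((((((((rootQ3.lowH 1).upH 0).lowH 1).upH 0).upH 1).lowH 0).upH 1).lowH 0).upH 1).upH 0) = true := by
  decide +kernel

set_option maxRecDepth 100000 in
def ghQ3b3_7 : checkT (eQUp Dq 1 1 0 0 (-3) 3 Q3b3) (regMgt 1199 597) [19, 19, 1, 1] (.node 1 (.node 0 (.node 1 .drop (.node 0 (.node 1 .drop .leaf) .leaf)) (.node 1 (.node 0 (.node 1 .drop .leaf) .leaf) .leaf)) .leaf) ((((((((rootQ3.lowH 1).upH 0).lowH 1).upH 0).upH 1).lowH 0).upH 1).upH 0) = true := by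
  decide +kernel

set_option maxRecDepth 100000 in
def ghQ3b3_8 : checkT (eQUp Dq 1 1 0 0 (-3) 3 Q3b3) (regMgt 1199 597) [19, 19, 1, 1] (.node 1 (.node 0 (.node 1 .drop (.node 0 (.node 1 .drop (.node 0 (.node 1 .drop .leaf) .leaf)) .leaf)) (.node 1 (.node 0 (.node 1 .drop .leaf) .leaf) .leaf)) .leaf) ((((((rootQ3.lowH 1).upH 0).lowH 1).upH 0).upH 1).upH 0) = true := by
  decide +kernel

set_option maxRecDepth 100000 in
def ghQ3b3_9 : checkT (eQUp Dq 1 1 0 0 (-3) 3 Q3b3) (regMgt 1199 597) [19, 19, 1, 1] (.node 1 (.node 1 .drop (.node 1 .drop .leaf)) .leaf) ((((((rootQ3.lowH 1).upH 0).upH 1).lowH 0).lowH 1).lowH 0) = true := by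
  decide +kernel

set_option maxRecDepth 100000 in
def ghQ3b3_10 : checkT (eQUp Dq 1 1 0 0 (-3) 3 Q3b3) (regMgt 1199 597) [19, 19, 1, 1] (.node 1 (.node 1 .drop (.node 0 .drop (.node 1 (.node 0 .drop (.node 1 .drop .leaf)) .leaf))) .leaf) ((((((((rootQ3.lowH 1).upH 0).upH 1).lowH 0).lowH 1).upH 0).lowH 1).lowH 0) = true := by
  decide +kernel

set_option maxRecDepth 100000 in
def ghQ3b3_11 : checkT (eQUp Dq 1 1 0 0 (-3) 3 Q3b3) (regMgt 1199 597) [19, 19, 1, 1] (.node 1 (.node 0 (.node 1 .drop (.node 0 (.node 1 .drop (.node 0 .drop .leaf)) .leaf)) (.node 1 (.node 0 (.node 1 (.node 0 .drop .leaf) .leaf) .leaf) .leaf)) .leaf) (((((((((rootQ3.lowH 1).upH 0).upH 1).lowH 0).lowH 1).upH 0).lowH 1).upH 0).lowH 1) = true := by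
  decide +kernel

set_option maxRecDepth 100000 in
def ghQ3b3_12 : checkT (eQUp Dq 1 1 0 0 (-3) 3 Q3b3) (regMgt 1199 597) [19, 19, 1, 1] .leaf (((((((((rootQ3.lowH 1).upH 0).upH 1).lowH 0).lowH 1).upH 0).lowH 1).upH 0).upH 1) = true := by
  decide +kernel

set_option maxRecDepth 100000 in
def ghQ3b3_13 : checkT (eQUp Dq 1 1 0 0 (-3) 3 Q3b3) (regMgt 1199 597) [19, 19, 1, 1] .leaf (((((((rootQ3.lowH 1).upH 0).upH 1).lowH 0).lowH 1).upH 0).upH 1) = true := by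
  decide +kernel

set_option maxRecDepth 100000 in
def ghQ3b3_14 : checkT (eQUp Dq 1 1 0 0 (-3) 3 Q3b3) (regMgt 1199 597) [19, 19, 1, 1] .leaf (((((rootQ3.lowH 1).upH 0).upH 1).lowH 0).upH 1) = true := by
  decide +kernel

set_option maxRecDepth 100000 in
def ghQ3b3_15 : checkT (eQUp Dq 1 1 0 0 (-3) 3 Q3b3) (regMgt 1199 597) [19, 19, 1, 1] .leaf ((((rootQ3.lowH 1).upH 0).upH 1).upH 0) = true := by
  decide +kernel

set_option maxRecDepth 100000 in
def ghQ3b3_16 : checkT (eQUp Dq 1 1 0 0 (-3) 3 Q3b3) (regMgt 1199 597) [19, 19, 1, 1] .leaf (rootQ3.upH 1) = true := by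
  decide +kernel

set_option maxRecDepth 100000 in
def ghEpb3_0 : checkT (eQUp Dq 4 1 (-4) 0 9 1 Ep3) (regMgt 1199 597) [7, 7, 1, 1] .leaf rootQ3 = true := by
  decide +kernel

set_option maxRecDepth 100000 in
def ghEmb3_0 : checkT (eQUp Dq 4 (-1) 4 0 (-9) 1 Ep3) (regMgt 1199 597) [7, 7, 1, 1] .leaf rootQ3 = true := by
  decide +kernel

end Vale.Agent.Lib.P154N
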