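import Vale.Agent.Lib.P154N.Bulk

set_option linter.defProp false

/-!
Kernel checks: fits.
-/

namespace Vale.Agent.Lib.P154N

open Vale.Agent.Lib.Common.Kron Vale.Agent.Lib.Common.Kron.PE Vale.Agent.Lib.P154M

set_option maxRecDepth 100000 in
def ghLk3v1_6 : checkT (eLow Da 20 53 466 (-792) 3195 8 Lk3v1) (regBand 9 2000 11 500) [49, 49, 1, 1] (.node 0 (.node 1 .drop (.node 0 .drop .leaf)) .leaf) (((((((((root2.upH 1).upH 0).lowH 1).upH 1).lowH 0).lowH 0).lowH 0).lowH 1).lowH 1) = true := by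
  decide +kernel

set_option maxRecDepth 100000 in
def ghLk3v1_7 : checkT (eLow Da 20 53 466 (-792) 3195 8 Lk3v1) (regBand 9 2000 11 500) [49, 49, 1, 1] (.node 0 (.node 0 .drop .leaf) .leaf) (((((((((((root2.upH 1).upH 0).lowH 1).upH 1).lowH 0).lowH 0).lowH 0).lowH 1).upH 1).lowH 0).lowH 1) = true := by
  decide +kernel

set_option maxRecDepth 100000 in
def ghLk3v1_8 : checkT (eLow Da 20 53 466 (-792) 3195 8 Lk3v1) (regBand 9 2000 11 500) [49, 49, 1, 1] (.node 0 (.node 1 (.node 0 (.node 1 .drop (.node 0 .drop .leaf)) .leaf) .leaf) .leaf) (((((((((((root2.upH 1).upH 0).lowH 1).upH 1).lowH 0).lowH 0).lowH 0).lowH 1).upH 1).lowH 0).upH 1) = true := by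
  decide +kernel

set_option maxRecDepth 100000 in
def ghLk3v1_9 : checkT (eLow Da 20 53 466 (-792) 3195 8 Lk3v1) (regBand 9 2000 11 500) [49, 49, 1, 1] .leaf ((((((((((root2.upH 1).upH 0).lowH 1).upH 1).lowH 0).lowH 0).lowH 0).lowH 1).upH 1).upH 0) = true := by
  decide +kernel

set_option maxRecDepth 100000 in
def ghLk3v1_10 : checkT (eLow Da 20 53 466 (-792) 3195 8 Lk3v1) (regBand 9 2000 11 500) [49, 49, 1, 1] .leaf ((((((((root2.upH 1).upH 0).lowH 1).upH 1).lowH 0).lowH 0).lowH 0).upH 1) = true := by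
  decide +kernel

set_option maxRecDepth 100000 in
def ghLk3v1_11 : checkT (eLow Da 20 53 466 (-792) 3195 8 Lk3v1) (regBand 9 2000 11 500) [49, 49, 1, 1] .leaf (((((((root2.upH 1).upH 0).lowH 1).upH 1).lowH 0).lowH 0).upH 0) = true := by
  decide +kernel

set_option maxRecDepth 100000 in
def ghLk3v1_12 : checkT (eLow Da 20 53 466 (-792) 3195 8 Lk3v1) (regBand 9 2000 11 500) [49, 49, 1, 1] .leaf ((((((root2.upH 1).upH 0).lowH 1).upH 1).lowH 0).upH 0) = true := by
  decide +kernel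

set_option maxRecDepth 100000 in
def ghLk3v1_13 : checkT (eLow Da 20 53 466 (-792) 3195 8 Lk3v1) (regBand 9 2000 11 500) [49, 49, 1, 1] .drop (((((root2.upH 1).upH 0).lowH 1).upH 1).upH 0) = true := by
  decide +kernel

set_option maxRecDepth 100000 in
def ghLk3v1_14 : checkT (eLow Da 20 53 466 (-792) 3195 8 Lk3v1) (regBand 9 2000 11 500) [49, 49, 1, 1] (.node 0 .leaf (.node 1 .leaf (.node 0 .leaf .leaf))) ((((((((root2.upH 1).upH 0).upH 1).lowH 0).lowH 1).lowH 0).lowH 0).lowH 1) = true := by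
  decide +kernel

set_option maxRecDepth 100000 in
def ghLk3v1_15 : checkT (eLow Da 20 53 466 (-792) 3195 8 Lk3v1) (regBand 9 2000 11 500) [49, 49, 1, 1] (.node 0 (.node 0 .leaf .leaf) .leaf) ((((((((root2.upH 1).upH 0).upH 1).lowH 0).lowH 1).lowH 0).lowH 0).upH 1) = true := by
  decide +kernel

set_option maxRecDepth 100000 in
def ghLk3v1_16 : checkT (eLow Da 20 53 466 (-792) 3195 8 Lk3v1) (regBand 9 2000 11 500) [49, 49, 1, 1] .leaf (((((((root2.upH 1).upH 0).upH 1).lowH 0).lowH 1).lowH 0).upH 0) = true := by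
  decide +kernel

set_option maxRecDepth 100000 in
def ghLk3v1_17 : checkT (eLow Da 20 53 466 (-792) 3195 8 Lk3v1) (regBand 9 2000 11 500) [49, 49, 1, 1] .drop ((((((root2.upH 1).upH 0).upH 1).lowH 0).lowH 1).upH 0) = true := by
  decide +kernel

set_option maxRecDepth 100000 in
def ghLk3v1_18 : checkT (eLow Da 20 53 466 (-792) 3195 8 Lk3v1) (regBand 9 2000 11 500) [49, 49, 1, 1] (.node 0 (.node 1 (.node 0 (.node 0 .leaf .leaf) .leaf) (.node 0 (.node 1 .leaf (.node 0 (.node 0 (.node 1 .leaf .drop) .drop) .drop)) .drop)) .drop) ((((((root2.upH 1).upH 0).upH 1).lowH 0).upH 1).lowH 0) = true := by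
  decide +kernel

set_option maxRecDepth 100000 in
def ghLk3v1_19 : checkT (eLow Da 20 53 466 (-792) 3195 8 Lk3v1) (regBand 9 2000 11 500) [49, 49, 1, 1] .drop ((((((root2.upH 1).upH 0).upH 1).lowH 0).upH 1).upH 0) = true := by
  decide +kernel

set_option maxRecDepth 100000 in
def ghLk3v1_20 : checkT (eLow Da 20 53 466 (-792) 3195 8 Lk3v1) (regBand 9 2000 11 500) [49, 49, 1, 1] .drop ((((root2.upH 1).upH 0).upH 1).upH 0) = true := by
  decide +kernel

set_option maxRecDepth 100000 in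
def ghLk3v2_0 : checkT (eLow Da 4 20 1 (-117) 639 8 Lk3v2) (regBand 9 2000 11 500) [49, 49, 1, 1] .leaf (root2.lowH 1) = true := by
  decide +kernel

set_option maxRecDepth 100000 in
def ghLk3v2_1 : checkT (eLow Da 4 20 1 (-117) 639 8 Lk3v2) (regBand 9 2000 11 500) [49, 49, 1, 1] .leaf (((root2.upH 1).lowH 0).lowH 1) = true := by
  decide +kernel

set_option maxRecDepth 100000 in
def ghLk3v2_2 : checkT (eLow Da 4 20 1 (-117) 639 8 Lk3v2) (regBand 9 2000 11 500) [49, 49, 1, 1] (.node 0 .drop (.node 0 .drop (.node 0 (.node 1 .leaf (.node 0 .drop (.node 0 .leaf .leaf))) (.node 1 .leaf .leaf)))) ((((root2.upH 1).lowH 0).upH 1).lowH 1) = true := by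
  decide +kernel

set_option maxRecDepth 100000 in
def ghLk3v2_3 : checkT (eLow Da 4 20 1 (-117) 639 8 Lk3v2) (regBand 9 2000 11 500) [49, 49, 1, 1] (.node 1 (.node 0 .drop (.node 0 .drop .leaf)) (.node 0 .drop (.node 0 .drop (.node 0 .leaf .leaf)))) ((((root2.upH 1).lowH 0).upH 1).upH 1) = true := by
  decide +kernel

set_option maxRecDepth 100000 in
def ghLk3v2_4 : checkT (eLow Da 4 20 1 (-117) 639 8 Lk3v2) (regBand 9 2000 11 500) [49, 49, 1, 1] .leaf ((((((root2.upH 1).upH 0).lowH 1).lowH 1).lowH 0).lowH 0) = true := by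
  decide +kernel

set_option maxRecDepth 100000 in
def ghLk3v2_5 : checkT (eLow Da 4 20 1 (-117) 639 8 Lk3v2) (regBand 9 2000 11 500) [49, 49, 1, 1] .leaf (((((((root2.upH 1).upH 0).lowH 1).lowH 1).lowH 0).upH 0).lowH 1) = true := by
  decide +kernel

set_option maxRecDepth 100000 in
def ghLk3v2_6 : checkT (eLow Da 4 20 1 (-117) 639 8 Lk3v2) (regBand 9 2000 11 500) [49, 49, 1, 1] (.node 0 .leaf (.node 1 .leaf (.node 0 .leaf (.node 1 .leaf (.node 0 .leaf .drop))))) (((((((root2.upH 1).upH 0).lowH 1).lowH 1).lowH 0).upH 0).upH 1) = true := by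
  decide +kernel

set_option maxRecDepth 100000 in
def ghLk3v2_7 : checkT (eLow Da 4 20 1 (-117) 639 8 Lk3v2) (regBand 9 2000 11 500) [49, 49, 1, 1] (.node 0 (.node 1 .leaf (.node 0 .leaf (.node 1 .leaf .drop))) (.node 1 (.node 0 .leaf .drop) .drop)) ((((((root2.upH 1).upH 0).lowH 1).lowH 1).upH 0).lowH 1) = true := by
  decide +kernel

set_option maxRecDepth 100000 in
def ghLk3v2_8 : checkT (eLow Da 4 20 1 (-117) 639 8 Lk3v2) (regBand 9 2000 11 500) [49, 49, 1, 1] (.node 0 (.node 1 (.node 0 (.node 1 .leaf (.node 0 .leaf .drop)) .drop) .drop) .drop) ((((((root2.upH 1).upH 0).lowH 1).lowH 1).upH 0).upH 1) = true := by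
  decide +kernel

set_option maxRecDepth 100000 in
def ghLk3v2_9 : checkT (eLow Da 4 20 1 (-117) 639 8 Lk3v2) (regBand 9 2000 11 500) [49, 49, 1, 1] .leaf (((((((root2.upH 1).upH 0).lowH 1).upH 1).lowH 0).lowH 0).lowH 0) = true := by
  decide +kernel

set_option maxRecDepth 100000 in
def ghLk3v2_10 : checkT (eLow Da 4 20 1 (-117) 639 8 Lk3v2) (regBand 9 2000 11 500) [49, 49, 1, 1] .leaf ((((((((root2.upH 1).upH 0).lowH 1).upH 1).lowH 0).lowH 0).upH 0).lowH 1) = true := by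
  decide +kernel

set_option maxRecDepth 100000 in
def ghLk3v2_11 : checkT (eLow Da 4 20 1 (-117) 639 8 Lk3v2) (regBand 9 2000 11 500) [49, 49, 1, 1] (.node 0 .leaf (.node 1 .leaf (.node 0 .leaf (.node 1 .leaf (.node 0 .leaf .drop))))) ((((((((root2.upH 1).upH 0).lowH 1).upH 1).lowH 0).lowH 0).upH 0).upH 1) = true := by
  decide +kernel

set_option maxRecDepth 100000 in
def ghLk3v2_12 : checkT (eLow Da 4 20 1 (-117) 639 8 Lk3v2) (regBand 9 2000 11 500) [49, 49, 1, 1] .leaf (((((((((root2.upH 1).upH 0).lowH 1).upH 1).lowH 0).upH 0).lowH 1).lowH 0).lowH 1) = true := by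
  decide +kernel

set_option maxRecDepth 100000 in
def ghLk3v2_13 : checkT (eLow Da 4 20 1 (-117) 639 8 Lk3v2) (regBand 9 2000 11 500) [49, 49, 1, 1] .leaf ((((((((((root2.upH 1).upH 0).lowH 1).upH 1).lowH 0).upH 0).lowH 1).lowH 0).upH 1).lowH 0) = true := by
  decide +kernel

set_option maxRecDepth 100000 in
def ghLk3v2_14 : checkT (eLow Da 4 20 1 (-117) 639 8 Lk3v2) (regBand 9 2000 11 500) [49, 49, 1, 1] (.node 1 (.node 0 .leaf (.node 1 .leaf (.node 0 .leaf .drop))) (.node 0 (.node 0 .leaf (.node 1 .leaf .drop)) .drop)) ((((((((((root2.upH 1).upH 0).lowH 1).upH 1).lowH 0).upH 0).lowH 1).lowH 0).upH 1).upH 0) = true := by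
  decide +kernel

set_option maxRecDepth 100000 in
def ghLk3v2_15 : checkT (eLow Da 4 20 1 (-117) 639 8 Lk3v2) (regBand 9 2000 11 500) [49, 49, 1, 1] (.node 0 (.node 1 (.node 0 .leaf (.node 1 .leaf (.node 0 .leaf .drop))) (.node 0 (.node 1 .leaf (.node 0 .leaf .drop)) .drop)) .drop) (((((((((root2.upH 1).upH 0).lowH 1).upH 1).lowH 0).upH 0).lowH 1).upH 0).lowH 1) = true := by
  decide +kernel

set_option maxRecDepth 100000 in
def ghLk3v2_16 : checkT (eLow Da 4 20 1 (-117) 639 8 Lk3v2) (regBand 9 2000 11 500) [49, 49, 1, 1] .drop (((((((((root2.upH 1).upH 0).lowH 1).upH 1).lowH 0).upH 0).lowH 1).upH 0).upH 1) = true := by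
  decide +kernel

end Vale.Agent.Lib.P154N
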