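import Vale.Agent.Lib.P154N.Bulk

set_option linter.defProp false

/-!
Kernel checks: fits.
-/

namespace Vale.Agent.Lib.P154N

open Vale.Agent.Lib.Common.Kron Vale.Agent.Lib.Common.Kron.PE Vale.Agent.Lib.P154M

set_option maxRecDepth 100000 in
def ghLk4v0_19 : checkT (eLow Da 4 15 72 (-150) 639 8 Lk4v0) (regLe 11 2000) [49, 49, 1, 1] (.node 0 (.node 1 (.node 0 (.node 1 .leaf (.node 0 .leaf .drop)) .drop) .drop) .drop) (((((((root2.upH 1).upH 0).lowH 1).upH 1).lowH 0).lowH 0).upH 1) = true := by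
  decide +kernel

set_option maxRecDepth 100000 in
def ghLk4v0_20 : checkT (eLow Da 4 15 72 (-150) 639 8 Lk4v0) (regLe 11 2000) [49, 49, 1, 1] .drop ((((((root2.upH 1).upH 0).lowH 1).upH 1).lowH 0).upH 0) = true := by
  decide +kernel

set_option maxRecDepth 100000 in
def ghLk4v0_21 : checkT (eLow Da 4 15 72 (-150) 639 8 Lk4v0) (regLe 11 2000) [49, 49, 1, 1] .drop (((((root2.upH 1).upH 0).lowH 1).upH 1).upH 0) = true := by
  decide +kernel

set_option maxRecDepth 100000 in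
def ghLk4v0_22 : checkT (eLow Da 4 15 72 (-150) 639 8 Lk4v0) (regLe 11 2000) [49, 49, 1, 1] .drop (((root2.upH 1).upH 0).upH 1) = true := by
  decide +kernel

set_option maxRecDepth 100000 in
def ghLk4v1_0 : checkT (eLow Da 20 53 466 (-792) 3195 8 Lk4v1) (regLe 11 2000) [49, 49, 1, 1] .leaf (root2.lowH 1) = true := by
  decide +kernel

set_option maxRecDepth 100000 in
def ghLk4v1_1 : checkT (eLow Da 20 53 466 (-792) 3195 8 Lk4v1) (regLe 11 2000) [49, 49, 1, 1] (.node 0 .leaf (.node 0 .leaf .leaf)) ((((root2.upH 1).lowH 0).lowH 1).lowH 1) = true := by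
  decide +kernel

set_option maxRecDepth 100000 in
def ghLk4v1_2 : checkT (eLow Da 20 53 466 (-792) 3195 8 Lk4v1) (regLe 11 2000) [49, 49, 1, 1] (.node 0 .leaf (.node 1 (.node 0 (.node 1 (.node 0 .leaf .leaf) .leaf) .leaf) .leaf)) ((((root2.upH 1).lowH 0).lowH 1).upH 1) = true := by
  decide +kernel

set_option maxRecDepth 100000 in
def ghLk4v1_3 : checkT (eLow Da 20 53 466 (-792) 3195 8 Lk4v1) (regLe 11 2000) [49, 49, 1, 1] (.node 0 .leaf (.node 0 .leaf (.node 0 (.node 1 .leaf (.node 0 .leaf .leaf)) .leaf))) ((((root2.upH 1).lowH 0).upH 1).lowH 1) = true := by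
  decide +kernel

set_option maxRecDepth 100000 in
def ghLk4v1_4 : checkT (eLow Da 20 53 466 (-792) 3195 8 Lk4v1) (regLe 11 2000) [49, 49, 1, 1] .leaf (((((root2.upH 1).lowH 0).upH 1).upH 1).lowH 0) = true := by
  decide +kernel

set_option maxRecDepth 100000 in
def ghLk4v1_5 : checkT (eLow Da 20 53 466 (-792) 3195 8 Lk4v1) (regLe 11 2000) [49, 49, 1, 1] (.node 1 .leaf (.node 0 .leaf (.node 0 .leaf .leaf))) ((((((root2.upH 1).lowH 0).upH 1).upH 1).upH 0).lowH 0) = true := by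
  decide +kernel

set_option maxRecDepth 100000 in
def ghLk4v1_6 : checkT (eLow Da 20 53 466 (-792) 3195 8 Lk4v1) (regLe 11 2000) [49, 49, 1, 1] (.node 1 (.node 0 (.node 0 .leaf .leaf) .drop) .leaf) ((((((root2.upH 1).lowH 0).upH 1).upH 1).upH 0).upH 0) = true := by
  decide +kernel

set_option maxRecDepth 100000 in
def ghLk4v1_7 : checkT (eLow Da 20 53 466 (-792) 3195 8 Lk4v1) (regLe 11 2000) [49, 49, 1, 1] (.node 1 (.node 1 .leaf (.node 0 (.node 0 (.node 1 .leaf .leaf) .drop) .drop)) .drop) ((root2.upH 1).upH 0) = true := by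
  decide +kernel

set_option maxRecDepth 100000 in
def ghLk4v2_0 : checkT (eLow Da 4 20 1 (-117) 639 8 Lk4v2) (regLe 11 2000) [49, 49, 1, 1] .leaf (root2.lowH 1) = true := by
  decide +kernel

set_option maxRecDepth 100000 in
def ghLk4v2_1 : checkT (eLow Da 4 20 1 (-117) 639 8 Lk4v2) (regLe 11 2000) [49, 49, 1, 1] .leaf ((((root2.upH 1).lowH 0).lowH 1).lowH 1) = true := by
  decide +kernel

set_option maxRecDepth 100000 in
def ghLk4v2_2 : checkT (eLow Da 4 20 1 (-117) 639 8 Lk4v2) (regLe 11 2000) [49, 49, 1, 1] .leaf (((((root2.upH 1).lowH 0).lowH 1).upH 1).lowH 0) = true := by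
  decide +kernel

set_option maxRecDepth 100000 in
def ghLk4v2_3 : checkT (eLow Da 4 20 1 (-117) 639 8 Lk4v2) (regLe 11 2000) [49, 49, 1, 1] (.node 0 .leaf (.node 0 .leaf (.node 1 .leaf (.node 0 .leaf (.node 1 .leaf .leaf))))) (((((root2.upH 1).lowH 0).lowH 1).upH 1).upH 0) = true := by
  decide +kernel

set_option maxRecDepth 100000 in
def ghLk4v2_4 : checkT (eLow Da 4 20 1 (-117) 639 8 Lk4v2) (regLe 11 2000) [49, 49, 1, 1] .leaf (((((root2.upH 1).lowH 0).upH 1).lowH 1).lowH 0) = true := by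
  decide +kernel

set_option maxRecDepth 100000 in
def ghLk4v2_5 : checkT (eLow Da 4 20 1 (-117) 639 8 Lk4v2) (regLe 11 2000) [49, 49, 1, 1] .leaf ((((((root2.upH 1).lowH 0).upH 1).lowH 1).upH 0).lowH 0) = true := by
  decide +kernel

set_option maxRecDepth 100000 in
def ghLk4v2_6 : checkT (eLow Da 4 20 1 (-117) 639 8 Lk4v2) (regLe 11 2000) [49, 49, 1, 1] .leaf ((((((((root2.upH 1).lowH 0).upH 1).lowH 1).upH 0).upH 0).lowH 1).lowH 0) = true := by
  decide +kernel

set_option maxRecDepth 100000 in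
def ghLk4v2_7 : checkT (eLow Da 4 20 1 (-117) 639 8 Lk4v2) (regLe 11 2000) [49, 49, 1, 1] (.node 0 .leaf (.node 0 .leaf (.node 1 .leaf (.node 0 .leaf .drop)))) (((((((((root2.upH 1).lowH 0).upH 1).lowH 1).upH 0).upH 0).lowH 1).upH 0).lowH 0) = true := by
  decide +kernel

set_option maxRecDepth 100000 in
def ghLk4v2_8 : checkT (eLow Da 4 20 1 (-117) 639 8 Lk4v2) (regLe 11 2000) [49, 49, 1, 1] (.node 1 (.node 0 (.node 1 .leaf (.node 0 .leaf .drop)) .drop) .drop) (((((((((root2.upH 1).lowH 0).upH 1).lowH 1).upH 0).upH 0).lowH 1).upH 0).upH 0) = true := by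
  decide +kernel

set_option maxRecDepth 100000 in
def ghLk4v2_9 : checkT (eLow Da 4 20 1 (-117) 639 8 Lk4v2) (regLe 11 2000) [49, 49, 1, 1] (.node 0 .leaf (.node 1 (.node 0 (.node 0 .leaf .drop) .drop) .drop)) (((((((root2.upH 1).lowH 0).upH 1).lowH 1).upH 0).upH 0).upH 1) = true := by
  decide +kernel

set_option maxRecDepth 100000 in
def ghLk4v2_10 : checkT (eLow Da 4 20 1 (-117) 639 8 Lk4v2) (regLe 11 2000) [49, 49, 1, 1] (.node 0 .leaf (.node 0 .leaf (.node 1 (.node 1 (.node 0 .leaf .drop) .leaf) .leaf))) (((((root2.upH 1).lowH 0).upH 1).upH 1).lowH 1) = true := by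
  decide +kernel

set_option maxRecDepth 100000 in
def ghLk4v2_11 : checkT (eLow Da 4 20 1 (-117) 639 8 Lk4v2) (regLe 11 2000) [49, 49, 1, 1] .leaf ((((((root2.upH 1).lowH 0).upH 1).upH 1).upH 1).lowH 0) = true := by
  decide +kernel

set_option maxRecDepth 100000 in
def ghLk4v2_12 : checkT (eLow Da 4 20 1 (-117) 639 8 Lk4v2) (regLe 11 2000) [49, 49, 1, 1] (.node 0 .leaf (.node 0 (.node 0 (.node 0 (.node 0 .leaf .leaf) .leaf) .leaf) .drop)) ((((((root2.upH 1).lowH 0).upH 1).upH 1).upH 1).upH 0) = true := by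
  decide +kernel

set_option maxRecDepth 100000 in
def ghLk4v2_13 : checkT (eLow Da 4 20 1 (-117) 639 8 Lk4v2) (regLe 11 2000) [49, 49, 1, 1] (.node 0 (.node 1 .leaf (.node 0 .leaf (.node 1 .leaf .drop))) .drop) ((((root2.upH 1).upH 0).lowH 1).lowH 1) = true := by
  decide +kernel

set_option maxRecDepth 100000 in
def ghLk4v2_14 : checkT (eLow Da 4 20 1 (-117) 639 8 Lk4v2) (regLe 11 2000) [49, 49, 1, 1] (.node 0 (.node 1 .leaf (.node 0 (.node 0 .leaf .leaf) .leaf)) (.node 1 .leaf .drop)) (((((((root2.upH 1).upH 0).lowH 1).upH 1).lowH 0).lowH 0).lowH 1) = true := by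
  decide +kernel

set_option maxRecDepth 100000 in
def ghLk4v2_15 : checkT (eLow Da 4 20 1 (-117) 639 8 Lk4v2) (regLe 11 2000) [49, 49, 1, 1] (.node 0 (.node 1 (.node 0 .leaf .drop) .drop) .drop) (((((((root2.upH 1).upH 0).lowH 1).upH 1).lowH 0).lowH 0).upH 1) = true := by
  decide +kernel

set_option maxRecDepth 100000 in
def ghLk4v2_16 : checkT (eLow Da 4 20 1 (-117) 639 8 Lk4v2) (regLe 11 2000) [49, 49, 1, 1] .drop ((((((root2.upH 1).upH 0).lowH 1).upH 1).lowH 0).upH 0) = true := by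
  decide +kernel

set_option maxRecDepth 100000 in
def ghLk4v2_17 : checkT (eLow Da 4 20 1 (-117) 639 8 Lk4v2) (regLe 11 2000) [49, 49, 1, 1] .drop (((((root2.upH 1).upH 0).lowH 1).upH 1).upH 0) = true := by
  decide +kernel

set_option maxRecDepth 100000 in
def ghLk4v2_18 : checkT (eLow Da 4 20 1 (-117) 639 8 Lk4v2) (regLe 11 2000) [49, 49, 1, 1] .drop (((root2.upH 1).upH 0).upH 1) = true := by
  decide +kernel

set_option maxRecDepth 100000 in
def ghUe2_0 : checkT (eUp Du 12 1 0 (-6) 33 10 Ue2) (regMgt 2 1) [61, 61, 1, 1] (.node 1 .drop .leaf) ((rootC.lowH 0).lowH 0) = true := by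
  decide +kernel

set_option maxRecDepth 100000 in
def ghUe2_1 : checkT (eUp Du 12 1 0 (-6) 33 10 Ue2) (regMgt 2 1) [61, 61, 1, 1] .drop (((rootC.lowH 0).upH 0).lowH 1) = true := by
  decide +kernel

end Vale.Agent.Lib.P154N
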