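import Vale.Agent.Lib.P154N.Bulk

set_option linter.defProp false

/-!
Kernel checks: fits.
-/

namespace Vale.Agent.Lib.P154N

open Vale.Agent.Lib.Common.Kron Vale.Agent.Lib.Common.Kron.PE Vale.Agent.Lib.P154M

set_option maxRecDepth 100000 in
def ghUe2_2 : checkT (eUp Du 12 1 0 (-6) 33 10 Ue2) (regMgt 2 1) [61, 61, 1, 1] (.node 1 (.node 0 (.node 1 .drop .leaf) (.node 1 .drop .leaf)) .leaf) ((((rootC.lowH 0).upH 0).upH 1).lowH 0) = true := by
  decide +kernel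

set_option maxRecDepth 100000 in
def ghUe2_3 : checkT (eUp Du 12 1 0 (-6) 33 10 Ue2) (regMgt 2 1) [61, 61, 1, 1] (.node 1 (.node 1 (.node 1 (.node 0 .drop .leaf) .leaf) .leaf) .leaf) ((((rootC.lowH 0).upH 0).upH 1).upH 0) = true := by
  decide +kernel

set_option maxRecDepth 100000 in
def ghUe2_4 : checkT (eUp Du 12 1 0 (-6) 33 10 Ue2) (regMgt 2 1) [61, 61, 1, 1] .drop ((((rootC.upH 0).lowH 1).lowH 1).lowH 0) = true := by
  decide +kernel

set_option maxRecDepth 100000 in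
def ghUe2_5 : checkT (eUp Du 12 1 0 (-6) 33 10 Ue2) (regMgt 2 1) [61, 61, 1, 1] .drop ((((((rootC.upH 0).lowH 1).lowH 1).upH 0).lowH 0).lowH 1) = true := by
  decide +kernel

set_option maxRecDepth 100000 in
def ghUe2_6 : checkT (eUp Du 12 1 0 (-6) 33 10 Ue2) (regMgt 2 1) [61, 61, 1, 1] (.node 1 .drop (.node 0 .drop (.node 1 .drop (.node 0 .drop .leaf)))) (((((((rootC.upH 0).lowH 1).lowH 1).upH 0).lowH 0).upH 1).lowH 0) = true := by
  decide +kernel

set_option maxRecDepth 100000 in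
def ghUe2_7 : checkT (eUp Du 12 1 0 (-6) 33 10 Ue2) (regMgt 2 1) [61, 61, 1, 1] (.node 1 (.node 0 .drop (.node 1 .drop (.node 0 (.node 1 .drop .leaf) .leaf))) (.node 0 (.node 1 (.node 0 .drop .leaf) .leaf) .leaf)) (((((((rootC.upH 0).lowH 1).lowH 1).upH 0).lowH 0).upH 1).upH 0) = true := by
  decide +kernel

set_option maxRecDepth 100000 in
def ghUe2_8 : checkT (eUp Du 12 1 0 (-6) 33 10 Ue2) (regMgt 2 1) [61, 61, 1, 1] (.node 1 .drop (.node 0 .drop (.node 1 (.node 0 .drop (.node 1 .drop .leaf)) .leaf))) (((((((rootC.upH 0).lowH 1).lowH 1).upH 0).upH 0).lowH 1).lowH 0) = true := by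
  decide +kernel

set_option maxRecDepth 100000 in
def ghUe2_9 : checkT (eUp Du 12 1 0 (-6) 33 10 Ue2) (regMgt 2 1) [61, 61, 1, 1] (.node 1 (.node 0 (.node 1 .drop (.node 0 .drop (.node 1 .drop .leaf))) (.node 1 (.node 0 (.node 1 .drop .leaf) .leaf) .leaf)) .leaf) (((((((rootC.upH 0).lowH 1).lowH 1).upH 0).upH 0).lowH 1).upH 0) = true := by
  decide +kernel

set_option maxRecDepth 100000 in
def ghUe2_10 : checkT (eUp Du 12 1 0 (-6) 33 10 Ue2) (regMgt 2 1) [61, 61, 1, 1] (.node 1 (.node 0 (.node 1 (.node 0 (.node 1 .drop .leaf) .leaf) .leaf) .leaf) .leaf) (((((((rootC.upH 0).lowH 1).lowH 1).upH 0).upH 0).upH 1).lowH 0) = true := by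
  decide +kernel

set_option maxRecDepth 100000 in
def ghUe2_11 : checkT (eUp Du 12 1 0 (-6) 33 10 Ue2) (regMgt 2 1) [61, 61, 1, 1] .leaf (((((((rootC.upH 0).lowH 1).lowH 1).upH 0).upH 0).upH 1).upH 0) = true := by
  decide +kernel

set_option maxRecDepth 100000 in
def ghUe2_12 : checkT (eUp Du 12 1 0 (-6) 33 10 Ue2) (regMgt 2 1) [61, 61, 1, 1] (.node 0 .drop (.node 1 (.node 0 .drop (.node 1 .drop (.node 0 .drop (.node 1 .drop .leaf)))) (.node 0 .drop (.node 1 (.node 0 (.node 1 .drop .leaf) .leaf) .leaf)))) (((((rootC.upH 0).lowH 1).upH 1).lowH 0).lowH 1) = true := by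
  decide +kernel

set_option maxRecDepth 100000 in
def ghUe2_13 : checkT (eUp Du 12 1 0 (-6) 33 10 Ue2) (regMgt 2 1) [61, 61, 1, 1] (.node 0 (.node 1 .drop (.node 0 (.node 1 .drop .leaf) .leaf)) .leaf) (((((rootC.upH 0).lowH 1).upH 1).lowH 0).upH 1) = true := by
  decide +kernel

set_option maxRecDepth 100000 in
def ghUe2_14 : checkT (eUp Du 12 1 0 (-6) 33 10 Ue2) (regMgt 2 1) [61, 61, 1, 1] (.node 1 (.node 0 (.node 1 (.node 0 (.node 1 .drop .leaf) .leaf) .leaf) .leaf) .leaf) ((((((rootC.upH 0).lowH 1).upH 1).upH 0).lowH 1).lowH 0) = true := by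
  decide +kernel

set_option maxRecDepth 100000 in
def ghUe2_15 : checkT (eUp Du 12 1 0 (-6) 33 10 Ue2) (regMgt 2 1) [61, 61, 1, 1] .leaf ((((((rootC.upH 0).lowH 1).upH 1).upH 0).lowH 1).upH 0) = true := by
  decide +kernel

set_option maxRecDepth 100000 in
def ghUe2_16 : checkT (eUp Du 12 1 0 (-6) 33 10 Ue2) (regMgt 2 1) [61, 61, 1, 1] .leaf (((((rootC.upH 0).lowH 1).upH 1).upH 0).upH 1) = true := by
  decide +kernel

set_option maxRecDepth 100000 in
def ghUe2_17 : checkT (eUp Du 12 1 0 (-6) 33 10 Ue2) (regMgt 2 1) [61, 61, 1, 1] .leaf ((rootC.upH 0).upH 1) = true := by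
  decide +kernel

end Vale.Agent.Lib.P154N
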