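import Vale.Agent.Lib.P154N.Bulk

set_option linter.defProp false

/-!
Kernel checks: fits.
-/

namespace Vale.Agent.Lib.P154N

open Vale.Agent.Lib.Common.Kron Vale.Agent.Lib.Common.Kron.PE Vale.Agent.Lib.P154M

set_option maxRecDepth 100000 in
def ghUe1_0 : checkT (eUp Du 4 (-1) 4 0 (-9) 10 Ue1) (regMgt 2 1) [61, 61, 1, 1] (.node 0 (.node 1 .drop .leaf) (.node 1 .drop (.node 0 .leaf (.node 1 (.node 0 .drop (.node 1 .drop .leaf)) .leaf)))) ((rootC.lowH 0).lowH 0) = true := by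
  decide +kernel

set_option maxRecDepth 100000 in
def ghUe1_1 : checkT (eUp Du 4 (-1) 4 0 (-9) 10 Ue1) (regMgt 2 1) [61, 61, 1, 1] .drop (((rootC.lowH 0).upH 0).lowH 1) = true := by
  decide +kernel

set_option maxRecDepth 100000 in
def ghUe1_2 : checkT (eUp Du 4 (-1) 4 0 (-9) 10 Ue1) (regMgt 2 1) [61, 61, 1, 1] (.node 1 (.node 1 .drop .leaf) .leaf) ((((rootC.lowH 0).upH 0).upH 1).lowH 0) = true := by
  decide +kernel

set_option maxRecDepth 100000 in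
def ghUe1_3 : checkT (eUp Du 4 (-1) 4 0 (-9) 10 Ue1) (regMgt 2 1) [61, 61, 1, 1] (.node 1 (.node 1 (.node 1 (.node 0 .drop .leaf) .leaf) .leaf) .leaf) ((((rootC.lowH 0).upH 0).upH 1).upH 0) = true := by
  decide +kernel

set_option maxRecDepth 100000 in
def ghUe1_4 : checkT (eUp Du 4 (-1) 4 0 (-9) 10 Ue1) (regMgt 2 1) [61, 61, 1, 1] .drop ((((rootC.upH 0).lowH 1).lowH 1).lowH 0) = true := by
  decide +kernel

set_option maxRecDepth 100000 in
def ghUe1_5 : checkT (eUp Du 4 (-1) 4 0 (-9) 10 Ue1) (regMgt 2 1) [61, 61, 1, 1] .drop ((((((rootC.upH 0).lowH 1).lowH 1).upH 0).lowH 1).lowH 0) = true := by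
  decide +kernel

set_option maxRecDepth 100000 in
def ghUe1_6 : checkT (eUp Du 4 (-1) 4 0 (-9) 10 Ue1) (regMgt 2 1) [61, 61, 1, 1] (.node 1 .drop (.node 0 .drop (.node 1 (.node 0 .drop (.node 1 .drop (.node 0 .drop (.node 1 .drop .leaf)))) (.node 0 (.node 1 (.node 0 .drop (.node 1 .drop .leaf)) .leaf) .leaf)))) (((((((rootC.upH 0).lowH 1).lowH 1).upH 0).lowH 1).upH 0).lowH 0) = true := by
  decide +kernel

set_option maxRecDepth 100000 in
def ghUe1_7 : checkT (eUp Du 4 (-1) 4 0 (-9) 10 Ue1) (regMgt 2 1) [61, 61, 1, 1] (.node 1 .drop (.node 0 .drop (.node 1 .drop (.node 0 (.node 1 .drop .leaf) .leaf)))) (((((((((rootC.upH 0).lowH 1).lowH 1).upH 0).lowH 1).upH 0).upH 0).lowH 1).lowH 0) = true := by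
  decide +kernel

set_option maxRecDepth 100000 in
def ghUe1_8 : checkT (eUp Du 4 (-1) 4 0 (-9) 10 Ue1) (regMgt 2 1) [61, 61, 1, 1] (.node 0 (.node 1 .drop (.node 0 .drop (.node 1 .drop (.node 0 .drop .leaf)))) (.node 1 (.node 0 .drop (.node 1 .drop .leaf)) .leaf)) ((((((((((rootC.upH 0).lowH 1).lowH 1).upH 0).lowH 1).upH 0).upH 0).lowH 1).upH 0).lowH 1) = true := by
  decide +kernel

set_option maxRecDepth 100000 in
def ghUe1_9 : checkT (eUp Du 4 (-1) 4 0 (-9) 10 Ue1) (regMgt 2 1) [61, 61, 1, 1] (.node 0 (.node 1 (.node 0 (.node 1 (.node 0 .drop .leaf) .leaf) .leaf) .leaf) .leaf) ((((((((((rootC.upH 0).lowH 1).lowH 1).upH 0).lowH 1).upH 0).upH 0).lowH 1).upH 0).upH 1) = true := by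
  decide +kernel

set_option maxRecDepth 100000 in
def ghUe1_10 : checkT (eUp Du 4 (-1) 4 0 (-9) 10 Ue1) (regMgt 2 1) [61, 61, 1, 1] (.node 1 (.node 0 (.node 1 (.node 0 (.node 1 .drop (.node 0 .drop .leaf)) .leaf) .leaf) .leaf) .leaf) (((((((((rootC.upH 0).lowH 1).lowH 1).upH 0).lowH 1).upH 0).upH 0).upH 1).lowH 0) = true := by
  decide +kernel

set_option maxRecDepth 100000 in
def ghUe1_11 : checkT (eUp Du 4 (-1) 4 0 (-9) 10 Ue1) (regMgt 2 1) [61, 61, 1, 1] .leaf (((((((((rootC.upH 0).lowH 1).lowH 1).upH 0).lowH 1).upH 0).upH 0).upH 1).upH 0) = true := by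
  decide +kernel

set_option maxRecDepth 100000 in
def ghUe1_12 : checkT (eUp Du 4 (-1) 4 0 (-9) 10 Ue1) (regMgt 2 1) [61, 61, 1, 1] (.node 0 .drop (.node 0 .drop (.node 1 .drop (.node 0 (.node 1 .drop (.node 0 .drop .leaf)) (.node 1 (.node 0 .drop .leaf) .leaf))))) (((((((rootC.upH 0).lowH 1).lowH 1).upH 0).upH 1).lowH 0).lowH 1) = true := by
  decide +kernel

set_option maxRecDepth 100000 in
def ghUe1_13 : checkT (eUp Du 4 (-1) 4 0 (-9) 10 Ue1) (regMgt 2 1) [61, 61, 1, 1] (.node 1 .drop (.node 0 .drop (.node 1 .drop (.node 0 .drop .leaf)))) ((((((((rootC.upH 0).lowH 1).lowH 1).upH 0).upH 1).lowH 0).upH 1).lowH 0) = true := by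
  decide +kernel

set_option maxRecDepth 100000 in
def ghUe1_14 : checkT (eUp Du 4 (-1) 4 0 (-9) 10 Ue1) (regMgt 2 1) [61, 61, 1, 1] (.node 1 (.node 0 (.node 1 (.node 0 .drop (.node 0 .drop .leaf)) (.node 0 .drop .leaf)) .leaf) .leaf) ((((((((rootC.upH 0).lowH 1).lowH 1).upH 0).upH 1).lowH 0).upH 1).upH 0) = true := by
  decide +kernel

end Vale.Agent.Lib.P154N
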