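import Vale.Agent.Lib.P154N.CkS0
import Vale.Agent.Lib.P154N.CkS1
import Vale.Agent.Lib.P154N.CkS2
import Vale.Agent.Lib.P154N.CkS3
import Vale.Agent.Lib.P154N.CkS4
import Vale.Agent.Lib.P154N.CkS5
import Vale.Agent.Lib.P154N.CkS6
import Vale.Agent.Lib.P154N.CkS7
import Vale.Agent.Lib.P154N.CkS8
import Vale.Agent.Lib.P154N.CkS9
import Vale.Agent.Lib.P154N.CkS10
import Vale.Agent.Lib.P154N.CkS11

/-!
Kernel checks: fits, assembled.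
-/

namespace Vale.Agent.Lib.P154N

open Vale.Agent.Lib.Common.Kron Vale.Agent.Lib.Common.Kron.PE Vale.Agent.Lib.P154M

theorem hLk1v0 : ∃ T, checkT (eLow Da 4 15 72 (-150) 639 8 Lk1v0) (regGe 9 200) [49, 49, 1, 1] T root2 = true :=
  ⟨_, (checkT_node ghLk1v0_0 (checkT_node ghLk1v0_1 (checkT_node ghLk1v0_2 (checkT_node (checkT_node (checkT_node ghLk1v0_3 ghLk1v0_4) ghLk1v0_5) ghLk1v0_6))))⟩

theorem hLk1v1 : ∃ T, checkT (eLow Da 20 53 466 (-792) 3195 8 Lk1v1) (regGe 9 200) [49, 49, 1, 1] T root2 = true :=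
  ⟨_, (checkT_node ghLk1v1_0 (checkT_node (checkT_node ghLk1v1_1 (checkT_node ghLk1v1_2 ghLk1v1_3)) (checkT_node ghLk1v1_4 (checkT_node (checkT_node (checkT_node ghLk1v1_5 (checkT_node ghLk1v1_6 ghLk1v1_7)) ghLk1v1_8) (checkT_node (checkT_node (checkT_node (checkT_node ghLk1v1_9 ghLk1v1_10) ghLk1v1_11) ghLk1v1_12) ghLk1v1_13)))))⟩

theorem hLk1v2 : ∃ T, checkT (eLow Da 4 20 1 (-117) 639 8 Lk1v2) (regGe 9 200) [49, 49, 1, 1] T root2 = true :=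
  ⟨_, (checkT_node ghLk1v2_0 (checkT_node ghLk1v2_1 (checkT_node (checkT_node ghLk1v2_2 (checkT_node ghLk1v2_3 ghLk1v2_4)) (checkT_node ghLk1v2_5 (checkT_node (checkT_node (checkT_node (checkT_node ghLk1v2_6 (checkT_node ghLk1v2_7 ghLk1v2_8)) ghLk1v2_9) (checkT_node (checkT_node ghLk1v2_10 ghLk1v2_11) ghLk1v2_12)) ghLk1v2_13)))))⟩

theorem hLk2v0 : ∃ T, checkT (eLow Da 4 15 72 (-150) 639 8 Lk2v0) (regBand 9 500 11 200) [49, 49, 1, 1] T root2 = true :=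
  ⟨_, (checkT_node ghLk2v0_0 (checkT_node (checkT_node ghLk2v0_1 (checkT_node ghLk2v0_2 (checkT_node (checkT_node ghLk2v0_3 ghLk2v0_4) (checkT_node (checkT_node ghLk2v0_5 ghLk2v0_6) ghLk2v0_7)))) (checkT_node ghLk2v0_8 (checkT_node (checkT_node (checkT_node ghLk2v0_9 (checkT_node (checkT_node ghLk2v0_10 (checkT_node ghLk2v0_11 ghLk2v0_12)) ghLk2v0_13)) ghLk2v0_14) (checkT_node (checkT_node (checkT_node (checkT_node ghLk2v0_15 ghLk2v0_16) (checkT_node ghLk2v0_17 ghLk2v0_18)) ghLk2v0_19) ghLk2v0_20)))))⟩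

theorem hLk2v1 : ∃ T, checkT (eLow Da 20 53 466 (-792) 3195 8 Lk2v1) (regBand 9 500 11 200) [49, 49, 1, 1] T root2 = true :=
  ⟨_, (checkT_node ghLk2v1_0 (checkT_node ghLk2v1_1 (checkT_node (checkT_node ghLk2v1_2 (checkT_node (checkT_node (checkT_node ghLk2v1_3 (checkT_node ghLk2v1_4 ghLk2v1_5)) ghLk2v1_6) ghLk2v1_7)) (checkT_node (checkT_node (checkT_node (checkT_node ghLk2v1_8 (checkT_node (checkT_node ghLk2v1_9 (checkT_node ghLk2v1_10 (checkT_node ghLk2v1_11 (checkT_node ghLk2v1_12 ghLk2v1_13)))) (checkT_node (checkT_node ghLk2v1_14 (checkT_node ghLk2v1_15 (checkT_node ghLk2v1_16 ghLk2v1_17))) (checkT_node ghLk2v1_18 ghLk2v1_19)))) (checkT_node (checkT_node (checkT_node ghLk2v1_20 (checkT_node (checkT_node ghLk2v1_21 ghLk2v1_22) ghLk2v1_23)) ghLk2v1_24) ghLk2v1_25)) (checkT_node (checkT_node ghLk2v1_26 (checkT_node ghLk2v1_27 ghLk2v1_28))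 ghLk2v1_29)) ghLk2v1_30))))⟩

theorem hLk2v2 : ∃ T, checkT (eLow Da 4 20 1 (-117) 639 8 Lk2v2) (regBand 9 500 11 200) [49, 49, 1, 1] T root2 = true :=
  ⟨_, (checkT_node ghLk2v2_0 (checkT_node ghLk2v2_1 (checkT_node (checkT_node (checkT_node ghLk2v2_2 (checkT_node ghLk2v2_3 (checkT_node ghLk2v2_4 ghLk2v2_5))) (checkT_node ghLk2v2_6 (checkT_node (checkT_node (checkT_node (checkT_node ghLk2v2_7 (checkT_node ghLk2v2_8 ghLk2v2_9)) ghLk2v2_10) ghLk2v2_11) ghLk2v2_12))) (checkT_node (checkT_node (checkT_node (checkT_node ghLk2v2_13 ghLk2v2_14) (checkT_node (checkT_node ghLk2v2_15 ghLk2v2_16) (checkT_node (checkT_node ghLk2v2_17 ghLk2v2_18) ghLk2v2_19))) (checkT_node (checkT_node ghLk2v2_20 (checkT_node ghLk2v2_21 ghLk2v2_22)) ghLk2v2_23)) ghLk2v2_24))))⟩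

theorem hLk3v0 : ∃ T, checkT (eLow Da 4 15 72 (-150) 639 8 Lk3v0) (regBand 9 2000 11 500) [49, 49, 1, 1] T root2 = true :=
  ⟨_, (checkT_node ghLk3v0_0 (checkT_node (checkT_node ghLk3v0_1 (checkT_node (checkT_node ghLk3v0_2 (checkT_node ghLk3v0_3 (checkT_node ghLk3v0_4 (checkT_node ghLk3v0_5 ghLk3v0_6)))) ghLk3v0_7)) (checkT_node (checkT_node ghLk3v0_8 (checkT_node (checkT_node (checkT_node ghLk3v0_9 (checkT_node ghLk3v0_10 ghLk3v0_11)) (checkT_node (checkT_node (checkT_node ghLk3v0_12 (checkT_node ghLk3v0_13 ghLk3v0_14)) ghLk3v0_15) ghLk3v0_16)) ghLk3v0_17)) (checkT_node (checkT_node (checkT_node (checkT_node ghLk3v0_18 (checkT_node (checkT_node ghLk3v0_19 ghLk3v0_20) ghLk3v0_21)) ghLk3v0_22) (checkT_node (checkT_node (checkT_node (checkT_node ghLk3v0_23 ghLk3v0_24) ghLk3v0_25) ghLk3v0_26) ghLk3v0_27)) ghLk3v0_28))))⟩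

theorem hLk3v1 : ∃ T, checkT (eLow Da 20 53 466 (-792) 3195 8 Lk3v1) (regBand 9 2000 11 500) [49, 49, 1, 1] T root2 = true :=
  ⟨_, (checkT_node ghLk3v1_0 (checkT_node (checkT_node (checkT_node ghLk3v1_1 (checkT_node ghLk3v1_2 ghLk3v1_3)) ghLk3v1_4) (checkT_node (checkT_node ghLk3v1_5 (checkT_node (checkT_node (checkT_node (checkT_node (checkT_node ghLk3v1_6 (checkT_node (checkT_node ghLk3v1_7 ghLk3v1_8) ghLk3v1_9)) ghLk3v1_10) ghLk3v1_11) ghLk3v1_12) ghLk3v1_13)) (checkT_node (checkT_node (checkT_node (checkT_node (checkT_node ghLk3v1_14 ghLk3v1_15) ghLk3v1_16) ghLk3v1_17) (checkT_node ghLk3v1_18 ghLk3v1_19)) ghLk3v1_20))))⟩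

theorem hLk3v2 : ∃ T, checkT (eLow Da 4 20 1 (-117) 639 8 Lk3v2) (regBand 9 2000 11 500) [49, 49, 1, 1] T root2 = true :=
  ⟨_, (checkT_node ghLk3v2_0 (checkT_node (checkT_node ghLk3v2_1 (checkT_node ghLk3v2_2 ghLk3v2_3)) (checkT_node (checkT_node (checkT_node (checkT_node ghLk3v2_4 (checkT_node ghLk3v2_5 ghLk3v2_6)) (checkT_node ghLk3v2_7 ghLk3v2_8)) (checkT_node (checkT_node (checkT_node ghLk3v2_9 (checkT_node ghLk3v2_10 ghLk3v2_11)) (checkT_node (checkT_node (checkT_node ghLk3v2_12 (checkT_node ghLk3v2_13 ghLk3v2_14)) (checkT_node ghLk3v2_15 ghLk3v2_16)) ghLk3v2_17)) ghLk3v2_18)) (checkT_node (checkT_node (checkT_node (checkT_node ghLk3v2_19 (checkT_node (checkT_node ghLk3v2_20 ghLk3v2_21) ghLk3v2_22)) ghLk3v2_23) (checkT_node (checkT_node (checkT_node (checkT_node ghLk3v2_24 ghLk3v2_25) ghLk3v2_26) ghLk3v2_27) ghLk3v2_28)) ghLk3v2_29))))⟩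

theorem hLk4v0 : ∃ T, checkT (eLow Da 4 15 72 (-150) 639 8 Lk4v0) (regLe 11 2000) [49, 49, 1, 1] T root2 = true :=
  ⟨_, (checkT_node (checkT_node ghLk4v0_0 ghLk4v0_1) (checkT_node (checkT_node (checkT_node ghLk4v0_2 (checkT_node ghLk4v0_3 (checkT_node ghLk4v0_4 (checkT_node ghLk4v0_5 (checkT_node ghLk4v0_6 ghLk4v0_7))))) (checkT_node (checkT_node ghLk4v0_8 (checkT_node ghLk4v0_9 ghLk4v0_10)) (checkT_node ghLk4v0_11 (checkT_node ghLk4v0_12 (checkT_node (checkT_node ghLk4v0_13 ghLk4v0_14) ghLk4v0_15))))) (checkT_node (checkT_node ghLk4v0_16 (checkT_node (checkT_node (checkT_node (checkT_node ghLk4v0_17 ghLk4v0_18) ghLk4v0_19) ghLk4v0_20) ghLk4v0_21)) ghLk4v0_22)))⟩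

theorem hLk4v1 : ∃ T, checkT (eLow Da 20 53 466 (-792) 3195 8 Lk4v1) (regLe 11 2000) [49, 49, 1, 1] T root2 = true :=
  ⟨_, (checkT_node ghLk4v1_0 (checkT_node (checkT_node (checkT_node ghLk4v1_1 ghLk4v1_2) (checkT_node ghLk4v1_3 (checkT_node ghLk4v1_4 (checkT_node ghLk4v1_5 ghLk4v1_6)))) ghLk4v1_7))⟩

theorem hLk4v2 : ∃ T, checkT (eLow Da 4 20 1 (-117) 639 8 Lk4v2) (regLe 11 2000) [49, 49, 1, 1] T root2 = true :=
  ⟨_, (checkT_node ghLk4v2_0 (checkT_node (checkT_node (checkT_node ghLk4v2_1 (checkT_node ghLk4v2_2 ghLk4v2_3)) (checkT_node (checkT_node ghLk4v2_4 (checkT_node ghLk4v2_5 (checkT_node (checkT_node ghLk4v2_6 (checkT_node ghLk4v2_7 ghLk4v2_8)) ghLk4v2_9))) (checkT_node ghLk4v2_10 (checkT_node ghLk4v2_11 ghLk4v2_12)))) (checkT_node (checkT_node ghLk4v2_13 (checkT_node (checkT_node (checkT_node ghLk4v2_14 ghLk4v2_15) ghLk4v2_16)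 ghLk4v2_17)) ghLk4v2_18)))⟩

theorem hUe2 : ∃ T, checkT (eUp Du 12 1 0 (-6) 33 10 Ue2) (regMgt 2 1) [61, 61, 1, 1] T rootC = true :=
  ⟨_, (checkT_node (checkT_node ghUe2_0 (checkT_node ghUe2_1 (checkT_node ghUe2_2 ghUe2_3))) (checkT_node (checkT_node (checkT_node ghUe2_4 (checkT_node (checkT_node ghUe2_5 (checkT_node ghUe2_6 ghUe2_7)) (checkT_node (checkT_node ghUe2_8 ghUe2_9) (checkT_node ghUe2_10 ghUe2_11)))) (checkT_node (checkT_node ghUe2_12 ghUe2_13) (checkT_node (checkT_node ghUe2_14 ghUe2_15) ghUe2_16))) ghUe2_17))⟩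

theorem hUe1 : ∃ T, checkT (eUp Du 4 (-1) 4 0 (-9) 10 Ue1) (regMgt 2 1) [61, 61, 1, 1] T rootC = true :=
  ⟨_, (checkT_node (checkT_node ghUe1_0 (checkT_node ghUe1_1 (checkT_node ghUe1_2 ghUe1_3))) (checkT_node (checkT_node (checkT_node ghUe1_4 (checkT_node (checkT_node ghUe1_5 (checkT_node ghUe1_6 (checkT_node (checkT_node ghUe1_7 (checkT_node ghUe1_8 ghUe1_9)) (checkT_node ghUe1_10 ghUe1_11)))) (checkT_node (checkT_node ghUe1_12 (checkT_node ghUe1_13 ghUe1_14)) (checkT_node (checkT_node (checkT_node (checkT_node ghUe1_15 ghUe1_16) ghUe1_17) ghUe1_18) ghUe1_19)))) (checkT_node ghUe1_20 (checkT_node (checkT_node ghUe1_21 ghUe1_22) ghUe1_23))) ghUe1_24))⟩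

theorem hU3 : ∃ T, checkT (eUp Du 1 1 0 0 (-3) 10 U3) (regMgt 2 1) [61, 61, 1, 1] T rootC = true :=
  ⟨_, (checkT_node (checkT_node (checkT_node ghU3_0 (checkT_node ghU3_1 ghU3_2)) ghU3_3) (checkT_node ghU3_4 ghU3_5))⟩

theorem hE : ∃ T, checkT (eHE chX1 chX2 chX3) (regMgt 2 1) [37, 37, 1, 1] T rootC = true :=
  ⟨_, ghE_0⟩

theorem hQe2b0 : ∃ T, checkT (eQUp Dq 12 1 0 (-6) 33 3 Qe2b0) (regMgt 1199 597) [19, 19, 1, 1] T rootQ0 = true :=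
  ⟨_, (checkT_node ghQe2b0_0 (checkT_node ghQe2b0_1 ghQe2b0_2))⟩

theorem hQe1b0 : ∃ T, checkT (eQUp Dq 4 (-1) 4 0 (-9) 3 Qe1b0) (regMgt 1199 597) [19, 19, 1, 1] T rootQ0 = true :=
  ⟨_, ghQe1b0_0⟩

theorem hQ3b0 : ∃ T, checkT (eQUp Dq 1 1 0 0 (-3) 3 Q3b0) (regMgt 1199 597) [19, 19, 1, 1] T rootQ0 = true :=
  ⟨_, (checkT_node (checkT_node ghQ3b0_0 (checkT_node ghQ3b0_1 ghQ3b0_2)) ghQ3b0_3)⟩

theorem hEpb0 : ∃ T, checkT (eQUp Dq 4 1 (-4) 0 9 1 Ep0) (regMgt 1199 597) [7, 7, 1, 1] T rootQ0 = true :=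
  ⟨_, ghEpb0_0⟩

theorem hEmb0 : ∃ T, checkT (eQUp Dq 4 (-1) 4 0 (-9) 1 Ep0) (regMgt 1199 597) [7, 7, 1, 1] T rootQ0 = true :=
  ⟨_, ghEmb0_0⟩

theorem hQe2b1 : ∃ T, checkT (eQUp Dq 12 1 0 (-6) 33 3 Qe2b1) (regMgt 1199 597) [19, 19, 1, 1] T rootQ1 = true :=
  ⟨_, (checkT_node ghQe2b1_0 (checkT_node ghQe2b1_1 (checkT_node ghQe2b1_2 (checkT_node (checkT_node ghQe2b1_3 ghQe2b1_4) ghQe2b1_5))))⟩

theorem hQe1b1 : ∃ T, checkT (eQUp Dq 4 (-1) 4 0 (-9) 3 Qe1b1) (regMgt 1199 597) [19, 19, 1, 1] T rootQ1 = true :=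
  ⟨_, ghQe1b1_0⟩

theorem hQ3b1 : ∃ T, checkT (eQUp Dq 1 1 0 0 (-3) 3 Q3b1) (regMgt 1199 597) [19, 19, 1, 1] T rootQ1 = true :=
  ⟨_, (checkT_node ghQ3b1_0 (checkT_node ghQ3b1_1 (checkT_node ghQ3b1_2 ghQ3b1_3)))⟩

theorem hEpb1 : ∃ T, checkT (eQUp Dq 4 1 (-4) 0 9 1 Ep1) (regMgt 1199 597) [7, 7, 1, 1] T rootQ1 = true :=
  ⟨_, ghEpb1_0⟩

theorem hEmb1 : ∃ T, checkT (eQUp Dq 4 (-1) 4 0 (-9) 1 Ep1) (regMgt 1199 597) [7, 7, 1, 1] T rootQ1 = true :=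
  ⟨_, ghEmb1_0⟩

theorem hQe2b2 : ∃ T, checkT (eQUp Dq 12 1 0 (-6) 33 3 Qe2b2) (regMgt 1199 597) [19, 19, 1, 1] T rootQ2 = true :=
  ⟨_, (checkT_node ghQe2b2_0 (checkT_node (checkT_node ghQe2b2_1 (checkT_node (checkT_node ghQe2b2_2 ghQe2b2_3) ghQe2b2_4)) ghQe2b2_5))⟩

theorem hQe1b2 : ∃ T, checkT (eQUp Dq 4 (-1) 4 0 (-9) 3 Qe1b2) (regMgt 1199 597) [19, 19, 1, 1] T rootQ2 = true :=
  ⟨_, ghQe1b2_0⟩

theorem hQ3b2 : ∃ T, checkT (eQUp Dq 1 1 0 0 (-3) 3 Q3b2) (regMgt 1199 597) [19, 19, 1, 1] T rootQ2 = true :=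
  ⟨_, (checkT_node ghQ3b2_0 (checkT_node ghQ3b2_1 (checkT_node (checkT_node (checkT_node ghQ3b2_2 (checkT_node (checkT_node (checkT_node ghQ3b2_3 ghQ3b2_4) ghQ3b2_5) ghQ3b2_6)) ghQ3b2_7) ghQ3b2_8)))⟩

theorem hEpb2 : ∃ T, checkT (eQUp Dq 4 1 (-4) 0 9 1 Ep2) (regMgt 1199 597) [7, 7, 1, 1] T rootQ2 = true :=
  ⟨_, ghEpb2_0⟩

theorem hEmb2 : ∃ T, checkT (eQUp Dq 4 (-1) 4 0 (-9) 1 Ep2) (regMgt 1199 597) [7, 7, 1, 1] T rootQ2 = true :=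
  ⟨_, ghEmb2_0⟩

theorem hQe2b3 : ∃ T, checkT (eQUp Dq 12 1 0 (-6) 33 3 Qe2b3) (regMgt 1199 597) [19, 19, 1, 1] T rootQ3 = true :=
  ⟨_, (checkT_node (checkT_node ghQe2b3_0 (checkT_node (checkT_node ghQe2b3_1 (checkT_node ghQe2b3_2 (checkT_node (checkT_node ghQe2b3_3 (checkT_node ghQe2b3_4 ghQe2b3_5)) (checkT_node (checkT_node (checkT_node ghQe2b3_6 (checkT_node ghQe2b3_7 ghQe2b3_8)) ghQe2b3_9) ghQe2b3_10)))) (checkT_node (checkT_node (checkT_node (checkT_node ghQe2b3_11 ghQe2b3_12) (checkT_node (checkT_node (checkT_node ghQe2b3_13 ghQe2b3_14) (checkT_node ghQe2b3_15 ghQe2b3_16)) ghQe2b3_17)) ghQe2b3_18) ghQe2b3_19))) ghQe2b3_20)⟩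

theorem hQe1b3 : ∃ T, checkT (eQUp Dq 4 (-1) 4 0 (-9) 3 Qe1b3) (regMgt 1199 597) [19, 19, 1, 1] T rootQ3 = true :=
  ⟨_, ghQe1b3_0⟩

theorem hQ3b3 : ∃ T, checkT (eQUp Dq 1 1 0 0 (-3) 3 Q3b3) (regMgt 1199 597) [19, 19, 1, 1] T rootQ3 = true :=
  ⟨_, (checkT_node (checkT_node ghQ3b3_0 (checkT_node (checkT_node ghQ3b3_1 (checkT_node ghQ3b3_2 (checkT_node (checkT_node ghQ3b3_3 (checkT_node (checkT_node ghQ3b3_4 (checkT_node ghQ3b3_5 ghQ3b3_6)) ghQ3b3_7)) ghQ3b3_8))) (checkT_node (checkT_node (checkT_node ghQ3b3_9 (checkT_node (checkT_node ghQ3b3_10 (checkT_node ghQ3b3_11 ghQ3b3_12)) ghQ3b3_13)) ghQ3b3_14) ghQ3b3_15))) ghQ3b3_16)⟩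

theorem hEpb3 : ∃ T, checkT (eQUp Dq 4 1 (-4) 0 9 1 Ep3) (regMgt 1199 597) [7, 7, 1, 1] T rootQ3 = true :=
  ⟨_, ghEpb3_0⟩

theorem hEmb3 : ∃ T, checkT (eQUp Dq 4 (-1) 4 0 (-9) 1 Ep3) (regMgt 1199 597) [7, 7, 1, 1] T rootQ3 = true :=
  ⟨_, ghEmb3_0⟩

end Vale.Agent.Lib.P154N
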