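import Vale.Agent.Lib.P154N.Bulk

set_option linter.defProp false

/-!
Kernel checks: fits.
-/

namespace Vale.Agent.Lib.P154N

open Vale.Agent.Lib.Common.Kron Vale.Agent.Lib.Common.Kron.PE Vale.Agent.Lib.P154M

set_option maxRecDepth 100000 in
def ghLk1v0_0 : checkT (eLow Da 4 15 72 (-150) 639 8 Lk1v0) (regGe 9 200) [49, 49, 1, 1] .leaf (root2.lowH 1) = true := by
  decide +kernel

set_option maxRecDepth 100000 in
def ghLk1v0_1 : checkT (eLow Da 4 15 72 (-150) 639 8 Lk1v0) (regGe 9 200) [49, 49, 1, 1] (.node 0 .drop (.node 0 .leaf (.node 1 .leaf (.node 1 .leaf (.node 0 .leaf .leaf))))) ((root2.upH 1).lowH 1) = true := by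
  decide +kernel

set_option maxRecDepth 100000 in
def ghLk1v0_2 : checkT (eLow Da 4 15 72 (-150) 639 8 Lk1v0) (regGe 9 200) [49, 49, 1, 1] .drop (((root2.upH 1).upH 1).lowH 0) = true := by
  decide +kernel

set_option maxRecDepth 100000 in
def ghLk1v0_3 : checkT (eLow Da 4 15 72 (-150) 639 8 Lk1v0) (regGe 9 200) [49, 49, 1, 1] (.node 0 .drop (.node 1 .drop (.node 0 .drop (.node 1 .leaf (.node 1 (.node 0 .drop (.node 1 .leaf .leaf)) (.node 0 .leaf .leaf)))))) ((((((root2.upH 1).upH 1).upH 0).lowH 0).lowH 1).lowH 0) = true := by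
  decide +kernel

set_option maxRecDepth 100000 in
def ghLk1v0_4 : checkT (eLow Da 4 15 72 (-150) 639 8 Lk1v0) (regGe 9 200) [49, 49, 1, 1] .leaf ((((((root2.upH 1).upH 1).upH 0).lowH 0).lowH 1).upH 0) = true := by
  decide +kernel

set_option maxRecDepth 100000 in
def ghLk1v0_5 : checkT (eLow Da 4 15 72 (-150) 639 8 Lk1v0) (regGe 9 200) [49, 49, 1, 1] (.node 0 (.node 1 .leaf (.node 0 (.node 0 .drop (.node 1 .drop (.node 0 .drop (.node 1 .drop (.node 0 .drop .leaf))))) .leaf)) .leaf) (((((root2.upH 1).upH 1).upH 0).lowH 0).upH 1) = true := by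
  decide +kernel

set_option maxRecDepth 100000 in
def ghLk1v0_6 : checkT (eLow Da 4 15 72 (-150) 639 8 Lk1v0) (regGe 9 200) [49, 49, 1, 1] (.node 1 (.node 1 (.node 0 .leaf (.node 1 .leaf .leaf)) .leaf) .leaf) ((((root2.upH 1).upH 1).upH 0).upH 0) = true := by
  decide +kernel

set_option maxRecDepth 100000 in
def ghLk1v1_0 : checkT (eLow Da 20 53 466 (-792) 3195 8 Lk1v1) (regGe 9 200) [49, 49, 1, 1] (.node 1 .drop (.node 0 .drop .leaf)) (root2.lowH 1) = true := by
  decide +kernel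

set_option maxRecDepth 100000 in
def ghLk1v1_1 : checkT (eLow Da 20 53 466 (-792) 3195 8 Lk1v1) (regGe 9 200) [49, 49, 1, 1] .drop (((root2.upH 1).lowH 1).lowH 0) = true := by
  decide +kernel

set_option maxRecDepth 100000 in
def ghLk1v1_2 : checkT (eLow Da 20 53 466 (-792) 3195 8 Lk1v1) (regGe 9 200) [49, 49, 1, 1] (.node 1 .drop (.node 0 .drop (.node 0 (.node 1 .drop (.node 0 .drop (.node 1 .drop (.node 0 .drop .leaf)))) .leaf))) ((((root2.upH 1).lowH 1).upH 0).lowH 0) = true := by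
  decide +kernel

set_option maxRecDepth 100000 in
def ghLk1v1_3 : checkT (eLow Da 20 53 466 (-792) 3195 8 Lk1v1) (regGe 9 200) [49, 49, 1, 1] (.node 1 .leaf (.node 1 .leaf .leaf)) ((((root2.upH 1).lowH 1).upH 0).upH 0) = true := by
  decide +kernel

set_option maxRecDepth 100000 in
def ghLk1v1_4 : checkT (eLow Da 20 53 466 (-792) 3195 8 Lk1v1) (regGe 9 200) [49, 49, 1, 1] .drop (((root2.upH 1).upH 1).lowH 0) = true := by
  decide +kernel

set_option maxRecDepth 100000 in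
def ghLk1v1_5 : checkT (eLow Da 20 53 466 (-792) 3195 8 Lk1v1) (regGe 9 200) [49, 49, 1, 1] (.node 1 .drop (.node 0 .drop (.node 1 (.node 0 .drop (.node 0 .drop (.node 1 .drop (.node 0 .drop .leaf)))) (.node 0 .drop (.node 1 (.node 0 .drop .leaf) (.node 0 (.node 0 .drop .leaf) .leaf)))))) ((((((root2.upH 1).upH 1).upH 0).lowH 1).lowH 0).lowH 0) = true := by
  decide +kernel

set_option maxRecDepth 100000 in
def ghLk1v1_6 : checkT (eLow Da 20 53 466 (-792) 3195 8 Lk1v1) (regGe 9 200) [49, 49, 1, 1] (.node 0 (.node 1 (.node 0 .drop .leaf) (.node 0 (.node 0 (.node 1 .drop (.node 0 .drop .leaf)) .leaf) .leaf)) .leaf) (((((((root2.upH 1).upH 1).upH 0).lowH 1).lowH 0).upH 0).lowH 1) = true := by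
  decide +kernel

set_option maxRecDepth 100000 in
def ghLk1v1_7 : checkT (eLow Da 20 53 466 (-792) 3195 8 Lk1v1) (regGe 9 200) [49, 49, 1, 1] .leaf (((((((root2.upH 1).upH 1).upH 0).lowH 1).lowH 0).upH 0).upH 1) = true := by
  decide +kernel

set_option maxRecDepth 100000 in
def ghLk1v1_8 : checkT (eLow Da 20 53 466 (-792) 3195 8 Lk1v1) (regGe 9 200) [49, 49, 1, 1] (.node 1 (.node 0 .leaf (.node 0 .leaf (.node 0 .leaf (.node 1 .leaf .leaf)))) .leaf) (((((root2.upH 1).upH 1).upH 0).lowH 1).upH 0) = true := by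
  decide +kernel

set_option maxRecDepth 100000 in
def ghLk1v1_9 : checkT (eLow Da 20 53 466 (-792) 3195 8 Lk1v1) (regGe 9 200) [49, 49, 1, 1] (.node 0 .drop (.node 0 (.node 1 .drop (.node 0 .drop (.node 1 .drop .leaf))) .leaf)) ((((((((root2.upH 1).upH 1).upH 0).upH 1).lowH 0).lowH 1).lowH 0).lowH 1) = true := by
  decide +kernel

set_option maxRecDepth 100000 in
def ghLk1v1_10 : checkT (eLow Da 20 53 466 (-792) 3195 8 Lk1v1) (regGe 9 200) [49, 49, 1, 1] (.node 0 .drop (.node 1 (.node 0 (.node 0 .drop .leaf) .leaf) .leaf)) ((((((((root2.upH 1).upH 1).upH 0).upH 1).lowH 0).lowH 1).lowH 0).upH 1) = true := by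
  decide +kernel

set_option maxRecDepth 100000 in
def ghLk1v1_11 : checkT (eLow Da 20 53 466 (-792) 3195 8 Lk1v1) (regGe 9 200) [49, 49, 1, 1] .leaf (((((((root2.upH 1).upH 1).upH 0).upH 1).lowH 0).lowH 1).upH 0) = true := by
  decide +kernel

set_option maxRecDepth 100000 in
def ghLk1v1_12 : checkT (eLow Da 20 53 466 (-792) 3195 8 Lk1v1) (regGe 9 200) [49, 49, 1, 1] (.node 0 (.node 1 (.node 0 .drop .leaf) (.node 0 (.node 0 .drop .leaf) .leaf)) .leaf) ((((((root2.upH 1).upH 1).upH 0).upH 1).lowH 0).upH 1) = true := by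
  decide +kernel

set_option maxRecDepth 100000 in
def ghLk1v1_13 : checkT (eLow Da 20 53 466 (-792) 3195 8 Lk1v1) (regGe 9 200) [49, 49, 1, 1] .leaf (((((root2.upH 1).upH 1).upH 0).upH 1).upH 0) = true := by
  decide +kernel

set_option maxRecDepth 100000 in
def ghLk1v2_0 : checkT (eLow Da 4 20 1 (-117) 639 8 Lk1v2) (regGe 9 200) [49, 49, 1, 1] .leaf (root2.lowH 1) = true := by
  decide +kernel

set_option maxRecDepth 100000 in
def ghLk1v2_1 : checkT (eLow Da 4 20 1 (-117) 639 8 Lk1v2) (regGe 9 200) [49, 49, 1, 1] (.node 0 .drop (.node 0 .leaf (.node 1 .leaf (.node 0 .leaf (.node 1 .leaf .leaf))))) ((root2.upH 1).lowH 1) = true := by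
  decide +kernel

set_option maxRecDepth 100000 in
def ghLk1v2_2 : checkT (eLow Da 4 20 1 (-117) 639 8 Lk1v2) (regGe 9 200) [49, 49, 1, 1] .drop ((((root2.upH 1).upH 1).lowH 1).lowH 0) = true := by
  decide +kernel

set_option maxRecDepth 100000 in
def ghLk1v2_3 : checkT (eLow Da 4 20 1 (-117) 639 8 Lk1v2) (regGe 9 200) [49, 49, 1, 1] (.node 0 (.node 0 .drop (.node 1 .drop (.node 1 .leaf (.node 0 .drop (.node 1 .leaf (.node 0 (.node 0 .drop .leaf) .leaf)))))) .leaf) (((((root2.upH 1).upH 1).lowH 1).upH 0).lowH 0) = true := by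
  decide +kernel

set_option maxRecDepth 100000 in
def ghLk1v2_4 : checkT (eLow Da 4 20 1 (-117) 639 8 Lk1v2) (regGe 9 200) [49, 49, 1, 1] (.node 1 (.node 0 .leaf .leaf) .leaf) (((((root2.upH 1).upH 1).lowH 1).upH 0).upH 0) = true := by
  decide +kernel

set_option maxRecDepth 100000 in
def ghLk1v2_5 : checkT (eLow Da 4 20 1 (-117) 639 8 Lk1v2) (regGe 9 200) [49, 49, 1, 1] .drop ((((root2.upH 1).upH 1).upH 1).lowH 0) = true := by
  decide +kernel

set_option maxRecDepth 100000 in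
def ghLk1v2_6 : checkT (eLow Da 4 20 1 (-117) 639 8 Lk1v2) (regGe 9 200) [49, 49, 1, 1] .drop ((((((((root2.upH 1).upH 1).upH 1).upH 0).lowH 0).lowH 1).lowH 0).lowH 0) = true := by
  decide +kernel

end Vale.Agent.Lib.P154N
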