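import Vale.Agent.Lib.P154M.Poly2

/-!
Coefficient data for the certificate in the range `4 / 9 ≤ mu ≤ 197 / 400`: polynomials in `3 * s`, `y`, with
common denominators, and polynomials in the smallest coordinate after the channel.
-/

namespace Vale.Agent.Lib.P154N

open Vale.Agent.Lib.P154M

/-- Denominator of the upper fits after the channel. -/
def Du : ℕ := 14400000
/-- Denominator of the lower fits before the channel. -/
def Da : ℕ := 4800000000
/-- Denominator of the fits near the vertices. -/
def Dq : ℕ := 1000000000

/-- Upper fit after the channel. -/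
def Ue2 : L2 := [(200000, 0, 1), (-8997, 2, 0), (53987, 1, 1), (-73292, 0, 2), (-2953, 3, 0), (22462, 2, 1), (29454, 1, 2), (-97, 4, 0), (21849, 0, 3), (4665, 3, 1), (-161329, 2, 2), (-1539, 5, 0)]

/-- Upper fit after the channel. -/
def Ue1 : L2 := [(-300000, 0, 1), (6309, 2, 0), (-47705, 1, 1), (39917, 0, 2), (-5, 3, 0), (3601, 2, 1), (158473, 1, 2), (2466, 4, 0), (-182564, 0, 3), (-17777, 3, 1), (-295721, 2, 2), (-3627, 5, 0)]

/-- Upper fit after the channel. -/
def U3 : L2 := [(2400000, 1, 0), (-4800000, 0, 1), (400055, 2, 0), (-1586279, 1, 1), (2197489, 0, 2), (120829, 3, 0), (-836753, 2, 1), (-3956177, 1, 2), (-3401, 4, 0), (7084463, 0, 3), (-96910, 3, 1), (10711496, 2, 2), (74028, 5, 0)]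

/-- Lower fit before the channel, piece 1, control point 0. -/
def Lk1v0 : L2 := [(1600000000, 1, 0), (59605348, 2, 0), (249206008, 1, 1), (-174756531, 0, 2), (-2747877, 3, 0), (-56007762, 2, 1), (-132839381, 1, 2), (7610311, 4, 0)]

/-- Lower fit before the channel, piece 1, control point 1. -/
def Lk1v1 : L2 := [(1500000000, 1, 0), (-50000000, 0, 1), (20799450, 2, 0), (671476196, 1, 1), (-1867008408, 0, 2), (-22695720, 3, 0), (91711230, 2, 1), (263827421, 1, 2), (-3153529, 4, 0)]

/-- Lower fit before the channel, piece 1, control point 2. -/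
def Lk1v2 : L2 := [(150000000, 1, 0), (3575000000, 0, 1), (-236154141, 2, 0), (2090879352, 1, 1), (-1811003425, 0, 2), (-94076453, 3, 0), (67279374, 2, 1), (-116631035, 1, 2), (10910365, 4, 0)]

/-- Lower fit before the channel, piece 2, control point 0. -/
def Lk2v0 : L2 := [(-68366965007, 0, 0), (130647978726, 1, 0), (-155829335213, 0, 1), (-79635663417, 2, 0), (209375421767, 1, 1), (-88389018289, 0, 2), (16151711723, 3, 0), (-67702267979, 2, 1), (70478498986, 1, 2), (11607578, 4, 0)]

/-- Lower fit before the channel, piece 2, control point 1. -/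
def Lk2v1 : L2 := [(58677058526, 0, 0), (-112660199395, 1, 0), (128731415951, 0, 1), (72576433224, 2, 0), (-183846323990, 1, 1), (69871471867, 0, 2), (-15163754670, 3, 0), (62776590936, 2, 1), (-65012950165, 1, 2), (2817259, 4, 0)]

/-- Lower fit before the channel, piece 2, control point 2. -/
def Lk2v2 : L2 := [(63563177858, 0, 0), (-84611523416, 1, 0), (146922943039, 0, 1), (35505166112, 2, 0), (-111076260579, 1, 1), (78642017930, 0, 2), (-4689331271, 3, 0), (19221365426, 2, 1), (-20006870554, 1, 2), (10098141, 4, 0)]

/-- Lower fit before the channel, piece 3, control point 0. -/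
def Lk3v0 : L2 := [(-236382953532, 0, 0), (468063686350, 1, 0), (-499059292773, 0, 1), (-293846166515, 2, 0), (729318034599, 1, 1), (-263564851784, 0, 2), (59938084602, 3, 0), (-244813132376, 2, 1), (249821312573, 1, 2), (6000898, 4, 0)]

/-- Lower fit before the channel, piece 3, control point 1. -/
def Lk3v1 : L2 := [(1110579413236, 0, 0), (-1925843037287, 1, 0), (2347839100527, 0, 1), (1103821520105, 2, 0), (-2861432145311, 1, 1), (1239912602429, 0, 2), (-209024964660, 3, 0), (853849361522, 2, 1), (-871892813435, 1, 2), (-142051, 4, 0)]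

/-- Lower fit before the channel, piece 3, control point 2. -/
def Lk3v2 : L2 := [(-1918820609716, 0, 0), (3463775653044, 1, 0), (-4042274283502, 0, 1), (-2045840930384, 2, 0), (5217643557126, 1, 1), (-2133500473134, 0, 2), (396849976625, 3, 0), (-1618019563317, 2, 1), (1648977161754, 1, 2), (7303104, 4, 0)]

/-- Lower fit before the channel, piece 4, control point 0. -/
def Lk4v0 : L2 := [(218018989127, 0, 0), (1089149707415, 1, 0), (481299789073, 0, 1), (-1274234006347, 2, 0), (2428217137339, 1, 1), (265416580032, 0, 2), (338093600014, 3, 0), (-1358436746017, 2, 1), (1363582381991, 1, 2), (21060786, 4, 0)]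

/-- Lower fit before the channel, piece 4, control point 1. -/
def Lk4v1 : L2 := [(5552235254929, 0, 0), (-10677945367130, 1, 0), (11486829273841, 0, 1), (6536353784658, 2, 0), (-16134416331542, 1, 1), (5935345673806, 0, 2), (-1292384538596, 3, 0), (5217080004368, 2, 1), (-5263280156655, 1, 2), (-29785665, 4, 0)]

/-- Lower fit before the channel, piece 4, control point 2. -/
def Lk4v2 : L2 := [(-8462712339611, 0, 0), (13849772363339, 1, 0), (-17018991917324, 0, 1), (-7534347639411, 2, 0), (19364934760685, 1, 1), (-8559090245551, 0, 2), (1362596468327, 3, 0), (-5458547041826, 2, 1), (5465569196091, 1, 2), (24954907, 4, 0)]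

/-- Upper fit near the vertices, block 0. -/
def Qe2b0 : L2 := [(-8145315, 0, 0), (-219862523, 1, 0), (8982900946, 2, 0), (-102412881518, 3, 0)]

/-- Upper fit near the vertices, block 0. -/
def Qe1b0 : L2 := [(-24508757, 0, 0), (1866557142, 1, 0), (-50787503692, 2, 0), (528681054174, 3, 0)]

/-- Upper fit near the vertices, block 0. -/
def Q3b0 : L2 := [(820739784, 0, 0), (-12506344885, 1, 0), (231396552256, 2, 0), (-2156130153652, 3, 0)]

/-- Bound for the first difference near the vertices, block 0. -/
def Ep0 : L2 := [(6411000, 0, 0)]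

/-- Upper fit near the vertices, block 1. -/
def Qe2b1 : L2 := [(-10514062, 0, 0), (21809286, 1, 0), (624142280, 2, 0), (-4496564209, 3, 0)]

/-- Upper fit near the vertices, block 1. -/
def Qe1b1 : L2 := [(-12757422, 0, 0), (676031855, 1, 0), (-9846189327, 2, 0), (51757770132, 3, 0)]

/-- Upper fit near the vertices, block 1. -/
def Q3b1 : L2 := [(773241344, 0, 0), (-7782194551, 1, 0), (71918853500, 2, 0), (-329895244060, 3, 0)]

/-- Bound for the first difference near the vertices, block 1. -/
def Ep1 : L2 := [(3692000, 0, 0)]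

/-- Upper fit near the vertices, block 2. -/
def Qe2b2 : L2 := [(-11463492, 0, 0), (72007810, 1, 0), (-239301944, 2, 0), (434958475, 3, 0)]

/-- Upper fit near the vertices, block 2. -/
def Qe1b2 : L2 := [(-4059212, 0, 0), (228624616, 1, 0), (-2065696608, 2, 0), (6205880247, 3, 0)]

/-- Upper fit near the vertices, block 2. -/
def Q3b2 : L2 := [(719867643, 0, 0), (-5068552756, 1, 0), (25489669917, 2, 0), (-62337666770, 3, 0)]

/-- Bound for the first difference near the vertices, block 2. -/
def Ep2 : L2 := [(4461000, 0, 0)]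

/-- Upper fit near the vertices, block 3. -/
def Qe2b3 : L2 := [(-10035726, 0, 0), (40709210, 1, 0), (-3616384, 2, 0), (-181580170, 3, 0)]

/-- Upper fit near the vertices, block 3. -/
def Qe1b3 : L2 := [(3029510, 0, 0), (34528623, 1, 0), (-252208620, 2, 0), (451651881, 3, 0)]

/-- Upper fit near the vertices, block 3. -/
def Q3b3 : L2 := [(682337264, 0, 0), (-3876813088, 1, 0), (13250681741, 2, 0), (-21108803693, 3, 0)]

/-- Bound for the first difference near the vertices, block 3. -/
def Ep3 : L2 := [(4461000, 0, 0)]

end Vale.Agent.Lib.P154N
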